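import Claimed.Agent.R227.EndB.Op

/-!
# Row 227, END227-B, layer STRONG: restricted weak type `⟹` strong type `(3,3)` with a logarithmic loss        (architect helper92, prefix `kb`)

PAPER-FREE; only the statements of `Op.lean` (black boxes) + `ℝ≥0∞` arithmetic.  Statements FROZEN (problem -> msg helper92).  Helper lemmas directly above their use, prefix `kbs_`.

SETTING: `0 < δ < 1`, `δ⁻¹ ≤ 2^m`, `KbRwt δ A`, `h` measurable, `∫ h³ ≤ 1`.   BANDS `kbBand h k = {2^k/8 ≤ h < 2^(k+1)/8}`.   At height `2^j`: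
`h = h 1{h < 2^j/8} + ∑_{j ≤ k < m+4} h 1_{band k} + h 1{2^(m+4)/8 ≤ h}` (for `j ≤ m+4`),   `K(low) ≤ 2^j/4`, `K(high) ≤ 1/4 ≤ 2^j/4`, so `2^j < K h ω` forces `2^j/(2(m+4)) < K(h 1_{band k}) ω` for one `k`.

## LEAF `KB-T1` : `kb_band_measurable`, `kb_band_vol`, `kb_high`   (~150 l.)
`kb_band_vol`: Markov for `h³`: `(2^k/8)^3 * vol {2^k/8 ≤ h} ≤ ∫ h³ ≤ 1` (`mul_meas_ge_le_lintegral` applied to `fun x => h x ^ 3`; `{T ≤ h} ⊆ {T^3 ≤ h^3}`), `(2^k/8)^3 = 8^k/512`; `ENNReal.le_div_iff_mul_le`.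
`kb_high`: `kb_K_le_lintegral`; pointwise `indicator {T ≤ h} h x * T^2 ≤ h x ^ 3`, `T = 2^(m+4)/8 = 2^(m+1)`; so `∫ indicator .. ≤ 1 / T^2 = 1/(4 * 4^m)`; `(ofReal (π δ²))⁻¹ ≤ ofReal (4^m)` because `1 ≤ π`, `δ⁻¹ ≤ 2^m`.
## LEAF `KB-T2` : `kb_band`   (~150 l.)
`indicator (band k) h ≤ (2^(k+1)/8) * indicator (band k) 1`, `kb_K_mono`, `kb_K_const_mul`: `{2^j/(2n) < K(h 1_band)} ⊆ {ofReal lam < K 1_band}`, `lam = 2^(j+1) / (n 2^k) ≤ 2/n ≤ 1` (`j ≤ k`, `2 ≤ n`).   `hA (band k) _ lam`, `kb_band_vol`: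
`A lam^(-3) vol ≤ A * (n³ 8^k / (8 * 8^j)) * (512/8^k) = A n³ 64/8^j`.   Do the arithmetic in `ℝ` and transfer by `ENNReal.ofReal_*`, or write everything with `ENNReal.ofReal`.
## LEAF `KB-T3` : `kb_split`, `kb_level`, `kb_K_le_top`   (~200 l.)
`kb_split`: pointwise identity/inequality by cases on the position of `h x` (`h x < 2^j/8`; `2^(m+4)/8 ≤ h x`; else let `k` be the unique index: existence by induction on `m + 4 - j`, or `Nat.find`); only `≤` is needed, all summands are `≥ 0`,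
`Finset.single_le_sum`.      `kb_level`: `kb_K_mono` + `kb_K_add_le` + `kb_K_sum_le` + `kb_K_le_const` (low: `2 * (2^j/8) = 2^j/4`) + `kb_high`; if all `K(band k) ω ≤ 2^j/(2(m+4))` then the sum over `Ico j (m+4)` is `≤ 2^j/2`: contradiction.
So the level set is contained in `⋃ k ∈ Ico j (m+4), {..}`; `measure_biUnion_finset_le`, `kb_band` with `n = m+4`, `card (Ico j (m+4)) ≤ m+4`.     `kb_K_le_top`: same with `j = m + 4` (no band).
## LEAF `KB-T4` : `kb_cube_le`, `kb_strong`   (~150 l.)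
`kb_cube_le`: if `t ≤ 1` trivial; else take the largest `j < J` with `2^j < t` (induction on `J`): `t ≤ 2^(j+1)`.     `kb_strong`: `lintegral_mono` with `kb_cube_le` (`J = m+4`, `kb_K_le_top`), `lintegral_add_left`, `lintegral_finset_sum`,
`lintegral_const_mul`, `lintegral_indicator_one` (level sets are measurable: `kb_K_measurable`, `measurableSet_lt`), `kb_level`: each term `8^(j+1) * (A (m+4)^4 64/8^j) = 512 A (m+4)^4`.
-/

set_option autoImplicit false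

namespace Claimed.Agent.R227

open Claims.C0388.Kakeya MeasureTheory
open scoped ENNReal

theorem kbs_exists_band {t : ℝ≥0∞} (d : ℕ) (j : ℕ) (h1 : (2 : ℝ≥0∞) ^ j / 8 ≤ t)
    (h2 : t < (2 : ℝ≥0∞) ^ (j + d) / 8) :
    ∃ k ∈ Finset.Ico j (j + d), (2 : ℝ≥0∞) ^ k / 8 ≤ t ∧ t < (2 : ℝ≥0∞) ^ (k + 1) / 8 := by
  induction d with
  | zero => exact absurd h2 (not_lt.2 h1)
  | succ d ih =>
    by_cases h3 : t < (2 : ℝ≥0∞) ^ (j + d) / 8
    · obtain ⟨k, hk, hk'⟩ := ih h3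
      rw [Finset.mem_Ico] at hk
      exact ⟨k, Finset.mem_Ico.2 ⟨hk.1, by omega⟩, hk'⟩
    · exact ⟨j + d, Finset.mem_Ico.2 ⟨by omega, by omega⟩, not_lt.1 h3, h2⟩

/-- the band `{2^k/8 ≤ h < 2^(k+1)/8}` -/
def kbBand (h : Space → ℝ≥0∞) (k : ℕ) : Set Space := {x | (2 : ℝ≥0∞) ^ k / 8 ≤ h x ∧ h x < (2 : ℝ≥0∞) ^ (k + 1) / 8}

/-! ### `KB-T1` -/

theorem kb_band_measurable {h : Space → ℝ≥0∞} (hh : Measurable h) (k : ℕ) : MeasurableSet (kbBand h k) := by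
  exact (measurableSet_le measurable_const hh).inter (measurableSet_lt hh measurable_const)

theorem kbs_cube (k : ℕ) : ((2 : ℝ≥0∞) ^ k / 8) ^ 3 = (8 : ℝ≥0∞) ^ k / 512 := by
  rw [div_eq_mul_inv, mul_pow, ← ENNReal.inv_pow, ← pow_mul, mul_comm k 3, pow_mul, div_eq_mul_inv]
  norm_num

theorem kb_band_vol {h : Space → ℝ≥0∞} (hh : Measurable h) (h3 : ∫⁻ x, h x ^ 3 ≤ 1) (k : ℕ) :
    volume (kbBand h k) ≤ 512 / (8 : ℝ≥0∞) ^ k := by
  have h1 := mul_meas_ge_le_lintegral (μ := (volume : Measure Space)) (hh.pow_const 3)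
    (((2 : ℝ≥0∞) ^ k / 8) ^ 3)
  have h2 : kbBand h k ⊆ {x | ((2 : ℝ≥0∞) ^ k / 8) ^ 3 ≤ h x ^ 3} := fun x hx =>
    pow_le_pow_left₀ zero_le hx.1 3
  have h3' : (8 : ℝ≥0∞) ^ k / 512 * volume (kbBand h k) ≤ 1 := by
    rw [← kbs_cube]
    exact (mul_le_mul_right (measure_mono h2) _).trans (h1.trans h3)
  rw [ENNReal.le_div_iff_mul_le (Or.inr (by positivity)) (Or.inr (by finiteness))]
  calc volume (kbBand h k) * 8 ^ k = 512 * ((8 : ℝ≥0∞) ^ k / 512 * volume (kbBand h k)) := by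
        rw [← mul_assoc, ENNReal.mul_div_cancel (by norm_num) (by norm_num), mul_comm]
    _ ≤ 512 * 1 := by gcongr
    _ = 512 := mul_one _

theorem kbs_inv_le {δ : ℝ} (hδ : 0 < δ) {m : ℕ} (hm : δ⁻¹ ≤ 2 ^ m) :
    (ENNReal.ofReal (Real.pi * δ ^ 2))⁻¹ ≤ (4 : ℝ≥0∞) ^ m := by
  have hpos : 0 < Real.pi * δ ^ 2 := by positivity
  rw [← ENNReal.ofReal_inv_of_pos hpos]
  have e : (4 : ℝ≥0∞) ^ m = ENNReal.ofReal ((4 : ℝ) ^ m) := by
    rw [ENNReal.ofReal_pow (by norm_num)]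
    norm_num
  rw [e]
  refine ENNReal.ofReal_le_ofReal ?_
  have h1 : (δ ^ 2)⁻¹ ≤ (4 : ℝ) ^ m := by
    have : (δ ^ 2)⁻¹ = (δ⁻¹) ^ 2 := by rw [inv_pow]
    rw [this]
    calc (δ⁻¹) ^ 2 ≤ ((2 : ℝ) ^ m) ^ 2 := by
          have := inv_pos.2 hδ
          gcongr
      _ = 4 ^ m := by
          rw [← pow_mul, mul_comm, pow_mul]
          norm_num
  have h2 : (Real.pi * δ ^ 2)⁻¹ ≤ (δ ^ 2)⁻¹ := by
    refine inv_anti₀ (by positivity) ?_
    have : (1 : ℝ) ≤ Real.pi := by linarith [Real.pi_gt_three]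
    nlinarith [sq_nonneg δ]
  exact h2.trans h1

theorem kb_high {δ : ℝ} (hδ : 0 < δ) {m : ℕ} (hm : δ⁻¹ ≤ 2 ^ m) {h : Space → ℝ≥0∞} (hh : Measurable h)
    (h3 : ∫⁻ x, h x ^ 3 ≤ 1) (ω : Direction) :
    kbK δ ({x | (2 : ℝ≥0∞) ^ (m + 4) / 8 ≤ h x}.indicator h) ω ≤ 1 / 4 := by
  set T : ℝ≥0∞ := (2 : ℝ≥0∞) ^ (m + 4) / 8 with hT
  have hT2 : T ^ 2 = 4 * (4 : ℝ≥0∞) ^ m := by
    have e1 : T = (2 : ℝ≥0∞) ^ (m + 1) := by
      rw [hT, show m + 4 = (m + 1) + 3 by ring, pow_add]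
      norm_num
      rw [mul_div_assoc, ENNReal.div_self (by norm_num) (by norm_num), mul_one]
    rw [e1, ← pow_mul, mul_comm, pow_mul, pow_succ]
    norm_num
    ring
  set I : ℝ≥0∞ := ∫⁻ x, {x | T ≤ h x}.indicator h x with hI
  have h1 : I * T ^ 2 ≤ 1 := by
    rw [hI, ← lintegral_mul_const' _ _ (by rw [hT2]; finiteness)]
    refine (lintegral_mono fun x => ?_).trans h3
    by_cases hx : T ≤ h x
    · rw [Set.indicator_of_mem (show x ∈ {x | T ≤ h x} from hx)]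
      calc h x * T ^ 2 ≤ h x * h x ^ 2 := by gcongr
        _ = h x ^ 3 := by ring
    · rw [Set.indicator_of_notMem (show x ∉ {x | T ≤ h x} from hx), zero_mul]
      exact zero_le
  refine (kb_K_le_lintegral δ _ ω).trans ?_
  rw [ENNReal.le_div_iff_mul_le (Or.inr (by norm_num)) (Or.inr (by norm_num))]
  calc (ENNReal.ofReal (Real.pi * δ ^ 2))⁻¹ * I * 4 ≤ (4 : ℝ≥0∞) ^ m * I * 4 := by
        gcongr
        exact kbs_inv_le hδ hm
    _ = I * T ^ 2 := by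
        rw [hT2]
        ring
    _ ≤ 1 := h1

/-! ### `KB-T2` -/

theorem kb_band {δ : ℝ} {A : ℝ≥0∞} (hA : KbRwt δ A) {h : Space → ℝ≥0∞} (hh : Measurable h)
    (h3 : ∫⁻ x, h x ^ 3 ≤ 1) {j k n : ℕ} (hjk : j ≤ k) (hn : 2 ≤ n) :
    surfaceMeasure {ω | (2 : ℝ≥0∞) ^ j / (2 * n) < kbK δ ((kbBand h k).indicator h) ω}
      ≤ A * (n : ℝ≥0∞) ^ 3 * 64 / (8 : ℝ≥0∞) ^ j := by
  set B := kbBand h k with hB
  have hBm : MeasurableSet B := kb_band_measurable hh k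
  have hn0 : (0 : ℝ) < n := by
    have : 0 < n := by omega
    exact_mod_cast this
  set c : ℝ≥0∞ := (2 : ℝ≥0∞) ^ (k + 1) / 8 with hc
  set lam : ℝ := 2 ^ (j + 1) / (n * 2 ^ k) with hlam
  have hlam0 : 0 < lam := by positivity
  have hlam1 : lam ≤ 1 := by
    rw [hlam, div_le_one (by positivity)]
    have h1 : (2 : ℝ) ^ j ≤ 2 ^ k := pow_le_pow_right₀ (by norm_num) hjk
    have h2 : (2 : ℝ) ≤ n := by exact_mod_cast hn
    calc (2 : ℝ) ^ (j + 1) = 2 * 2 ^ j := by ring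
      _ ≤ n * 2 ^ k := by gcongr
  -- `ofReal lam`
  have elam : ENNReal.ofReal lam = (2 : ℝ≥0∞) ^ (j + 1) / (n * 2 ^ k) := by
    rw [hlam, ENNReal.ofReal_div_of_pos (by positivity), ENNReal.ofReal_mul hn0.le,
      ENNReal.ofReal_pow (by norm_num), ENNReal.ofReal_pow (by norm_num), ENNReal.ofReal_natCast]
    norm_num
  have elam3 : ENNReal.ofReal (lam ^ (-3 : ℝ)) =
      (n : ℝ≥0∞) ^ 3 * 8 ^ k * (8⁻¹ * ((8 : ℝ≥0∞) ^ j)⁻¹) := by
    have e1 : lam ^ (-3 : ℝ) = (n : ℝ) ^ 3 * 8 ^ k / (8 * 8 ^ j) := by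
      rw [Real.rpow_neg hlam0.le, show (3 : ℝ) = ((3 : ℕ) : ℝ) by norm_num, Real.rpow_natCast, hlam,
        div_pow, inv_div, mul_pow, ← pow_mul, ← pow_mul, mul_comm k 3, mul_comm (j + 1) 3, pow_mul,
        pow_mul, pow_succ]
      norm_num
      ring
    rw [e1, ENNReal.ofReal_div_of_pos (by positivity), ENNReal.ofReal_mul (by positivity),
      ENNReal.ofReal_mul (by norm_num), ENNReal.ofReal_pow hn0.le, ENNReal.ofReal_pow (by norm_num),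
      ENNReal.ofReal_pow (by norm_num), ENNReal.ofReal_natCast, div_eq_mul_inv,
      ENNReal.mul_inv (Or.inl (by norm_num)) (Or.inl (by norm_num))]
    norm_num
  -- comparison with the indicator
  have hle : ∀ x, B.indicator h x ≤ c * B.indicator 1 x := by
    intro x
    by_cases hx : x ∈ B
    · rw [Set.indicator_of_mem hx, Set.indicator_of_mem hx, Pi.one_apply, mul_one]
      exact hx.2.le
    · rw [Set.indicator_of_notMem hx]
      exact zero_le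
  have hK : ∀ ω, kbK δ (B.indicator h) ω ≤ c * kbK δ (B.indicator 1) ω := by
    intro ω
    rw [← kb_K_const_mul δ c (measurable_one.indicator hBm) ω]
    exact kb_K_mono δ hle ω
  have hsub : {ω | (2 : ℝ≥0∞) ^ j / (2 * n) < kbK δ (B.indicator h) ω} ⊆
      {ω | ENNReal.ofReal lam < kbK δ (B.indicator 1) ω} := by
    intro ω hω
    have h1 : (2 : ℝ≥0∞) ^ j / (2 * n) < c * kbK δ (B.indicator 1) ω := lt_of_lt_of_le hω (hK ω)
    have e2 : (2 : ℝ≥0∞) ^ j / (2 * n) = c * ENNReal.ofReal lam := by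
      have hn' : (n : ℝ≥0∞) ≠ 0 := by
        have : n ≠ 0 := by omega
        exact_mod_cast this
      have e8 : (8 : ℝ≥0∞)⁻¹ * 4 = 2⁻¹ := by
        rw [show (8 : ℝ≥0∞) = 2 * 4 by norm_num,
          ENNReal.mul_inv (Or.inl (by norm_num)) (Or.inl (by norm_num)), mul_assoc,
          ENNReal.inv_mul_cancel (by norm_num) (by norm_num), mul_one]
      have ek : (2 : ℝ≥0∞) ^ k * ((2 : ℝ≥0∞) ^ k)⁻¹ = 1 :=
        ENNReal.mul_inv_cancel (by positivity) (by finiteness)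
      rw [elam, hc, div_eq_mul_inv, div_eq_mul_inv, div_eq_mul_inv,
        ENNReal.mul_inv (Or.inl (by norm_num)) (Or.inl (by norm_num)),
        ENNReal.mul_inv (Or.inl hn') (Or.inl (by finiteness))]
      calc (2 : ℝ≥0∞) ^ j * (2⁻¹ * (n : ℝ≥0∞)⁻¹)
          = 2 ^ j * (8⁻¹ * 4) * (n : ℝ≥0∞)⁻¹ * ((2 : ℝ≥0∞) ^ k * ((2 : ℝ≥0∞) ^ k)⁻¹) := by
            rw [e8, ek]
            ring
        _ = _ := by ring
    rw [e2] at h1
    exact lt_of_mul_lt_mul_left' h1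
  refine (measure_mono hsub).trans ((hA B hBm lam hlam0 hlam1).trans ?_)
  have hv := kb_band_vol hh h3 k
  have ek8 : (8 : ℝ≥0∞) ^ k * ((8 : ℝ≥0∞) ^ k)⁻¹ = 1 :=
    ENNReal.mul_inv_cancel (by positivity) (by finiteness)
  have e512 : (8 : ℝ≥0∞)⁻¹ * 512 = 64 := by
    rw [show (512 : ℝ≥0∞) = 8 * 64 by norm_num, ← mul_assoc,
      ENNReal.inv_mul_cancel (by norm_num) (by norm_num), one_mul]
  calc A * ENNReal.ofReal (lam ^ (-3 : ℝ)) * volume B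
      ≤ A * ENNReal.ofReal (lam ^ (-3 : ℝ)) * (512 / (8 : ℝ≥0∞) ^ k) := by gcongr
    _ = A * (n : ℝ≥0∞) ^ 3 * ((8 : ℝ≥0∞)⁻¹ * 512) * ((8 : ℝ≥0∞) ^ k * ((8 : ℝ≥0∞) ^ k)⁻¹)
          * ((8 : ℝ≥0∞) ^ j)⁻¹ := by
        rw [elam3, div_eq_mul_inv]
        ring
    _ = _ := by
        rw [e512, ek8, mul_one, div_eq_mul_inv]

/-! ### `KB-T3` -/

theorem kb_split (h : Space → ℝ≥0∞) {j m : ℕ} (hj : j ≤ m + 4) (x : Space) :
    h x ≤ {x | h x < (2 : ℝ≥0∞) ^ j / 8}.indicator h x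
      + (∑ k ∈ Finset.Ico j (m + 4), (kbBand h k).indicator h x
        + {x | (2 : ℝ≥0∞) ^ (m + 4) / 8 ≤ h x}.indicator h x) := by
  by_cases h1 : h x < (2 : ℝ≥0∞) ^ j / 8
  · rw [Set.indicator_of_mem (show x ∈ {x | h x < (2 : ℝ≥0∞) ^ j / 8} from h1)]
    exact le_self_add
  by_cases h2 : (2 : ℝ≥0∞) ^ (m + 4) / 8 ≤ h x
  · rw [Set.indicator_of_mem (show x ∈ {x | (2 : ℝ≥0∞) ^ (m + 4) / 8 ≤ h x} from h2)]
    exact le_add_left (le_add_left le_rfl)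
  obtain ⟨d, hd⟩ := Nat.exists_eq_add_of_le hj
  obtain ⟨k, hk, hk'⟩ := kbs_exists_band d j (not_lt.1 h1) (by rw [← hd]; exact not_le.1 h2)
  rw [← hd] at hk
  have h3 : h x = (kbBand h k).indicator h x := (Set.indicator_of_mem (show x ∈ kbBand h k from hk') h).symm
  have h4 : (kbBand h k).indicator h x ≤ ∑ k ∈ Finset.Ico j (m + 4), (kbBand h k).indicator h x :=
    Finset.single_le_sum (f := fun k => (kbBand h k).indicator h x) (fun _ _ => zero_le) hk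
  calc h x ≤ ∑ k ∈ Finset.Ico j (m + 4), (kbBand h k).indicator h x := h3.le.trans h4
    _ ≤ _ := le_add_left le_self_add

theorem kbs_K_le {δ : ℝ} (hδ : 0 < δ) {m : ℕ} (hm : δ⁻¹ ≤ 2 ^ m) {h : Space → ℝ≥0∞}
    (hh : Measurable h) (h3 : ∫⁻ x, h x ^ 3 ≤ 1) {j : ℕ} (hj : j ≤ m + 4) (ω : Direction) :
    kbK δ h ω ≤ (2 : ℝ≥0∞) ^ j / 4
      + (∑ k ∈ Finset.Ico j (m + 4), kbK δ ((kbBand h k).indicator h) ω + 1 / 4) := by
  have m1 : Measurable ({x | h x < (2 : ℝ≥0∞) ^ j / 8}.indicator h) :=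
    hh.indicator (measurableSet_lt hh measurable_const)
  have m2 : ∀ k, Measurable ((kbBand h k).indicator h) := fun k =>
    hh.indicator (kb_band_measurable hh k)
  have m3 : Measurable (fun x => ∑ k ∈ Finset.Ico j (m + 4), (kbBand h k).indicator h x) :=
    Finset.measurable_fun_sum _ fun k _ => m2 k
  have a1 : kbK δ ({x | h x < (2 : ℝ≥0∞) ^ j / 8}.indicator h) ω ≤ (2 : ℝ≥0∞) ^ j / 4 := by
    have := kb_K_le_const hδ (h := {x | h x < (2 : ℝ≥0∞) ^ j / 8}.indicator h)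
      (M := (2 : ℝ≥0∞) ^ j / 8) (fun x => by
        by_cases hx : h x < (2 : ℝ≥0∞) ^ j / 8
        · rw [Set.indicator_of_mem (show x ∈ {x | h x < (2 : ℝ≥0∞) ^ j / 8} from hx)]
          exact hx.le
        · rw [Set.indicator_of_notMem (show x ∉ {x | h x < (2 : ℝ≥0∞) ^ j / 8} from hx)]
          exact zero_le) ω
    refine this.trans (le_of_eq ?_)
    rw [div_eq_mul_inv, div_eq_mul_inv, show (8 : ℝ≥0∞) = 2 * 4 by norm_num,
      ENNReal.mul_inv (Or.inl (by norm_num)) (Or.inl (by norm_num))]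
    calc (2 : ℝ≥0∞) * (2 ^ j * (2⁻¹ * 4⁻¹)) = (2 * 2⁻¹) * (2 ^ j * 4⁻¹) := by ring
      _ = _ := by rw [ENNReal.mul_inv_cancel (by norm_num) (by norm_num), one_mul]
  calc kbK δ h ω ≤ kbK δ (fun x => {x | h x < (2 : ℝ≥0∞) ^ j / 8}.indicator h x
        + (∑ k ∈ Finset.Ico j (m + 4), (kbBand h k).indicator h x
          + {x | (2 : ℝ≥0∞) ^ (m + 4) / 8 ≤ h x}.indicator h x)) ω :=
        kb_K_mono δ (fun x => kb_split h hj x) ω
    _ ≤ kbK δ ({x | h x < (2 : ℝ≥0∞) ^ j / 8}.indicator h) ω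
        + kbK δ (fun x => ∑ k ∈ Finset.Ico j (m + 4), (kbBand h k).indicator h x
          + {x | (2 : ℝ≥0∞) ^ (m + 4) / 8 ≤ h x}.indicator h x) ω := kb_K_add_le δ m1 ω
    _ ≤ kbK δ ({x | h x < (2 : ℝ≥0∞) ^ j / 8}.indicator h) ω
        + (kbK δ (fun x => ∑ k ∈ Finset.Ico j (m + 4), (kbBand h k).indicator h x) ω
          + kbK δ ({x | (2 : ℝ≥0∞) ^ (m + 4) / 8 ≤ h x}.indicator h) ω) := by
        gcongr
        exact kb_K_add_le δ m3 ω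
    _ ≤ _ := by
        gcongr
        · exact kb_K_sum_le δ _ _ (fun k _ => m2 k) ω
        · exact kb_high hδ hm hh h3 ω

theorem kbs_quarter (j : ℕ) : (1 : ℝ≥0∞) / 4 ≤ (2 : ℝ≥0∞) ^ j / 4 := by
  gcongr
  exact one_le_pow₀ (by norm_num)

theorem kbs_quarters (a : ℝ≥0∞) : a / 4 + (a / 2 + a / 4) = a := by
  have e4 : (4 : ℝ≥0∞)⁻¹ + (2⁻¹ + 4⁻¹) = 1 := by
    have h2 : (2 : ℝ≥0∞)⁻¹ = 4⁻¹ + 4⁻¹ := by
      rw [← two_mul, show (4 : ℝ≥0∞) = 2 * 2 by norm_num,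
        ENNReal.mul_inv (Or.inl (by norm_num)) (Or.inl (by norm_num)), ← mul_assoc,
        ENNReal.mul_inv_cancel (by norm_num) (by norm_num), one_mul]
    calc (4 : ℝ≥0∞)⁻¹ + (2⁻¹ + 4⁻¹) = 2⁻¹ + (4⁻¹ + 4⁻¹) := by ring
      _ = 2⁻¹ + 2⁻¹ := by rw [← h2]
      _ = 1 := ENNReal.inv_two_add_inv_two
  calc a / 4 + (a / 2 + a / 4) = a * (4⁻¹ + (2⁻¹ + 4⁻¹)) := by
        simp only [div_eq_mul_inv]
        ring
    _ = a := by rw [e4, mul_one]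

theorem kbs_K_le_top {δ : ℝ} (hδ : 0 < δ) {m : ℕ} (hm : δ⁻¹ ≤ 2 ^ m) {h : Space → ℝ≥0∞}
    (hh : Measurable h) (h3 : ∫⁻ x, h x ^ 3 ≤ 1) (ω : Direction) :
    kbK δ h ω ≤ (2 : ℝ≥0∞) ^ (m + 4) := by
  have h1 := kbs_K_le hδ hm hh h3 (le_refl (m + 4)) ω
  rw [Finset.Ico_self, Finset.sum_empty, zero_add] at h1
  refine h1.trans ?_
  calc (2 : ℝ≥0∞) ^ (m + 4) / 4 + 1 / 4
      ≤ (2 : ℝ≥0∞) ^ (m + 4) / 4 + ((2 : ℝ≥0∞) ^ (m + 4) / 2 + (2 : ℝ≥0∞) ^ (m + 4) / 4) := by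
        gcongr
        exact le_add_left (kbs_quarter _)
    _ = _ := kbs_quarters _

theorem kb_level {δ : ℝ} (hδ : 0 < δ) {A : ℝ≥0∞} (hA : KbRwt δ A) {m : ℕ} (hm : δ⁻¹ ≤ 2 ^ m)
    {h : Space → ℝ≥0∞} (hh : Measurable h) (h3 : ∫⁻ x, h x ^ 3 ≤ 1) (j : ℕ) :
    surfaceMeasure {ω | (2 : ℝ≥0∞) ^ j < kbK δ h ω} ≤ A * ((m : ℝ≥0∞) + 4) ^ 4 * 64 / (8 : ℝ≥0∞) ^ j := by
  by_cases hj : j ≤ m + 4
  swap
  · have hemp : {ω | (2 : ℝ≥0∞) ^ j < kbK δ h ω} = ∅ := by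
      ext ω
      simp only [Set.mem_ofPred_eq, Set.mem_empty_iff_false, iff_false, not_lt]
      exact (kbs_K_le_top hδ hm hh h3 ω).trans
        (pow_le_pow_right₀ (by norm_num) (by omega))
    rw [hemp, measure_empty]
    exact zero_le
  set n : ℕ := m + 4 with hn
  have hn2 : 2 ≤ n := by omega
  have hnc : ((n : ℕ) : ℝ≥0∞) = (m : ℝ≥0∞) + 4 := by
    rw [hn]
    push_cast
    rfl
  have hn0 : (n : ℝ≥0∞) ≠ 0 := by
    have : n ≠ 0 := by omega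
    exact_mod_cast this
  have hsub : {ω | (2 : ℝ≥0∞) ^ j < kbK δ h ω} ⊆
      ⋃ k ∈ Finset.Ico j n, {ω | (2 : ℝ≥0∞) ^ j / (2 * n) < kbK δ ((kbBand h k).indicator h) ω} := by
    intro ω hω
    by_contra hcon
    simp only [Set.mem_iUnion, Set.mem_ofPred_eq, not_exists, not_lt] at hcon
    have h1 := kbs_K_le hδ hm hh h3 hj ω
    have h2 : ∑ k ∈ Finset.Ico j n, kbK δ ((kbBand h k).indicator h) ω ≤ (2 : ℝ≥0∞) ^ j / 2 := by
      calc ∑ k ∈ Finset.Ico j n, kbK δ ((kbBand h k).indicator h) ω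
          ≤ ∑ _k ∈ Finset.Ico j n, (2 : ℝ≥0∞) ^ j / (2 * n) := Finset.sum_le_sum fun k hk => hcon k hk
        _ = ((Finset.Ico j n).card : ℝ≥0∞) * ((2 : ℝ≥0∞) ^ j / (2 * n)) := by
            rw [Finset.sum_const, nsmul_eq_mul]
        _ ≤ (n : ℝ≥0∞) * ((2 : ℝ≥0∞) ^ j / (2 * n)) := by
            gcongr
            rw [Nat.card_Ico]
            omega
        _ = (2 : ℝ≥0∞) ^ j / 2 := by
            rw [div_eq_mul_inv, div_eq_mul_inv,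
              ENNReal.mul_inv (Or.inl (by norm_num)) (Or.inl (by norm_num))]
            calc (n : ℝ≥0∞) * (2 ^ j * (2⁻¹ * (n : ℝ≥0∞)⁻¹))
                = ((n : ℝ≥0∞) * (n : ℝ≥0∞)⁻¹) * (2 ^ j * 2⁻¹) := by ring
              _ = _ := by rw [ENNReal.mul_inv_cancel hn0 (by finiteness), one_mul]
    have h4 : kbK δ h ω ≤ (2 : ℝ≥0∞) ^ j := by
      calc kbK δ h ω ≤ (2 : ℝ≥0∞) ^ j / 4 + ((2 : ℝ≥0∞) ^ j / 2 + (2 : ℝ≥0∞) ^ j / 4) := by
            refine h1.trans ?_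
            exact add_le_add le_rfl (add_le_add h2 (kbs_quarter j))
        _ = _ := kbs_quarters _
    exact absurd hω (not_lt.2 h4)
  calc surfaceMeasure {ω | (2 : ℝ≥0∞) ^ j < kbK δ h ω}
      ≤ surfaceMeasure (⋃ k ∈ Finset.Ico j n,
          {ω | (2 : ℝ≥0∞) ^ j / (2 * n) < kbK δ ((kbBand h k).indicator h) ω}) := measure_mono hsub
    _ ≤ ∑ k ∈ Finset.Ico j n,
          surfaceMeasure {ω | (2 : ℝ≥0∞) ^ j / (2 * n) < kbK δ ((kbBand h k).indicator h) ω} :=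
        measure_biUnion_finset_le _ _
    _ ≤ ∑ _k ∈ Finset.Ico j n, A * (n : ℝ≥0∞) ^ 3 * 64 / (8 : ℝ≥0∞) ^ j :=
        Finset.sum_le_sum fun k hk => kb_band hA hh h3 (Finset.mem_Ico.1 hk).1 hn2
    _ = ((Finset.Ico j n).card : ℝ≥0∞) * (A * (n : ℝ≥0∞) ^ 3 * 64 / (8 : ℝ≥0∞) ^ j) := by
        rw [Finset.sum_const, nsmul_eq_mul]
    _ ≤ (n : ℝ≥0∞) * (A * (n : ℝ≥0∞) ^ 3 * 64 / (8 : ℝ≥0∞) ^ j) := by
        gcongr
        rw [Nat.card_Ico]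
        omega
    _ = _ := by
        rw [← hnc, div_eq_mul_inv, div_eq_mul_inv]
        ring

theorem kb_K_le_top {δ : ℝ} (hδ : 0 < δ) {m : ℕ} (hm : δ⁻¹ ≤ 2 ^ m) {h : Space → ℝ≥0∞} (hh : Measurable h)
    (h3 : ∫⁻ x, h x ^ 3 ≤ 1) (ω : Direction) : kbK δ h ω ≤ (2 : ℝ≥0∞) ^ (m + 4) := by
  exact kbs_K_le_top hδ hm hh h3 ω

/-! ### `KB-T4` -/

theorem kb_cube_le (J : ℕ) {t : ℝ≥0∞} (ht : t ≤ (2 : ℝ≥0∞) ^ J) :
    t ^ 3 ≤ 1 + ∑ j ∈ Finset.range J, (8 : ℝ≥0∞) ^ (j + 1) * (if (2 : ℝ≥0∞) ^ j < t then 1 else 0) := by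
  induction J with
  | zero =>
    rw [pow_zero] at ht
    rw [Finset.range_zero, Finset.sum_empty, add_zero]
    exact pow_le_one₀ zero_le ht
  | succ J ih =>
    rw [Finset.sum_range_succ, ← add_assoc]
    by_cases h1 : t ≤ (2 : ℝ≥0∞) ^ J
    · exact (ih h1).trans le_self_add
    · rw [if_pos (not_le.1 h1), mul_one]
      refine le_add_left ?_
      calc t ^ 3 ≤ ((2 : ℝ≥0∞) ^ (J + 1)) ^ 3 := by gcongr
        _ = 8 ^ (J + 1) := by
            rw [← pow_mul, mul_comm, pow_mul]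
            norm_num

theorem kbs_surface_univ : surfaceMeasure (Set.univ : Set Direction) ≤ 13 := by
  rw [surfaceMeasure, Measure.toSphere_apply_univ, EuclideanSpace.volume_ball_fin_three]
  have e : Module.finrank ℝ Space = 3 := by simp
  rw [e]
  have h13 : (13 : ℝ≥0∞) = ENNReal.ofReal 13 := by norm_num
  have h3 : ((3 : ℕ) : ℝ≥0∞) = ENNReal.ofReal 3 := by norm_num
  rw [h13, h3, ENNReal.ofReal_one, one_pow, one_mul, ← ENNReal.ofReal_mul (by norm_num)]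
  refine ENNReal.ofReal_le_ofReal ?_
  have := Real.pi_lt_d2
  nlinarith

/-- **strong type with logarithmic loss**, normalised form -/
theorem kb_strong {δ : ℝ} (hδ : 0 < δ) {A : ℝ≥0∞} (hA : KbRwt δ A) {m : ℕ} (hm : δ⁻¹ ≤ 2 ^ m)
    {h : Space → ℝ≥0∞} (hh : Measurable h) (h3 : ∫⁻ x, h x ^ 3 ≤ 1) :
    ∫⁻ ω, kbK δ h ω ^ 3 ∂surfaceMeasure ≤ 13 + 512 * A * ((m : ℝ≥0∞) + 4) ^ 5 := by
  have hKm : Measurable (kbK δ h) := kb_K_measurable hδ hh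
  have hms : ∀ j : ℕ, MeasurableSet {ω | (2 : ℝ≥0∞) ^ j < kbK δ h ω} := fun j =>
    measurableSet_lt measurable_const hKm
  have e1 : ∀ ω, kbK δ h ω ^ 3 ≤ 1 + ∑ j ∈ Finset.range (m + 4), (8 : ℝ≥0∞) ^ (j + 1) *
      {ω | (2 : ℝ≥0∞) ^ j < kbK δ h ω}.indicator 1 ω := by
    intro ω
    refine (kb_cube_le (m + 4) (kb_K_le_top hδ hm hh h3 ω)).trans (le_of_eq ?_)
    congr 1
    refine Finset.sum_congr rfl fun j _ => ?_
    congr 1
    by_cases hj : (2 : ℝ≥0∞) ^ j < kbK δ h ω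
    · rw [if_pos hj, Set.indicator_of_mem (show ω ∈ {ω | (2 : ℝ≥0∞) ^ j < kbK δ h ω} from hj)]
      rfl
    · rw [if_neg hj, Set.indicator_of_notMem (show ω ∉ {ω | (2 : ℝ≥0∞) ^ j < kbK δ h ω} from hj)]
  have e8 : ∀ j : ℕ, (8 : ℝ≥0∞) ^ (j + 1) * (A * ((m : ℝ≥0∞) + 4) ^ 4 * 64 / (8 : ℝ≥0∞) ^ j) =
      512 * A * ((m : ℝ≥0∞) + 4) ^ 4 := by
    intro j
    have ek8 : (8 : ℝ≥0∞) ^ j * ((8 : ℝ≥0∞) ^ j)⁻¹ = 1 :=
      ENNReal.mul_inv_cancel (by positivity) (by finiteness)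
    rw [div_eq_mul_inv, pow_succ]
    calc (8 : ℝ≥0∞) ^ j * 8 * (A * ((m : ℝ≥0∞) + 4) ^ 4 * 64 * ((8 : ℝ≥0∞) ^ j)⁻¹)
        = ((8 : ℝ≥0∞) ^ j * ((8 : ℝ≥0∞) ^ j)⁻¹) * ((8 * 64) * A * ((m : ℝ≥0∞) + 4) ^ 4) := by ring
      _ = _ := by
          rw [ek8, one_mul]
          norm_num
  calc ∫⁻ ω, kbK δ h ω ^ 3 ∂surfaceMeasure
      ≤ ∫⁻ ω, (1 + ∑ j ∈ Finset.range (m + 4), (8 : ℝ≥0∞) ^ (j + 1) *
          {ω | (2 : ℝ≥0∞) ^ j < kbK δ h ω}.indicator 1 ω) ∂surfaceMeasure := lintegral_mono e1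
    _ = surfaceMeasure Set.univ + ∑ j ∈ Finset.range (m + 4), (8 : ℝ≥0∞) ^ (j + 1) *
          surfaceMeasure {ω | (2 : ℝ≥0∞) ^ j < kbK δ h ω} := by
        rw [lintegral_add_left measurable_const, lintegral_one,
          lintegral_finsetSum _ (fun j _ => (measurable_one.indicator (hms j)).const_mul _)]
        congr 1
        refine Finset.sum_congr rfl fun j _ => ?_
        rw [lintegral_const_mul _ (measurable_one.indicator (hms j)), lintegral_indicator_one (hms j)]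
    _ ≤ 13 + ∑ _j ∈ Finset.range (m + 4), 512 * A * ((m : ℝ≥0∞) + 4) ^ 4 := by
        refine add_le_add kbs_surface_univ (Finset.sum_le_sum fun j _ => ?_)
        rw [← e8 j]
        gcongr
        exact kb_level hδ hA hm hh h3 j
    _ = _ := by
        rw [Finset.sum_const, Finset.card_range, nsmul_eq_mul]
        push_cast
        ring

end Claimed.Agent.R227
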