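import Claimed.Agent.R227.EndB.Rwt
import Claimed.Agent.R227.EndB.Strong

/-!
# Row 227, END227-B, layer FINAL: `DiscreteKakeya ⟹ MaximalConjecture`        (architect helper92, prefix `kb`)   ALL LEAVES KB-F1..F4 PROVED (helper297)

PAPER-FREE.  Statements FROZEN (problem -> msg helper92).  Helper lemmas directly above their use, prefix `kbf_`.

## LEAF `KB-F1` : `kb_eLpNorm_three`, `kb_eLpNorm_f`   (~60 l., Mathlib only)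
`eLpNorm_eq_lintegral_rpow_enorm_toReal (by norm_num) (by norm_num)`, `ENNReal.toReal_ofNat`, `enorm_eq_self`, `ofReal_norm_eq_enorm`, `ENNReal.rpow_natCast`/`ENNReal.rpow_ofNat` (`(3 : ℝ) = ((3 : ℕ) : ℝ)`).
## LEAF `KB-F2` : `kb_scale`   (~120 l.)
`I = ∫ h³`.  `I = 0`: `h = 0` a.e. (`lintegral_eq_zero_iff`, `pow_eq_zero_iff`), `kb_K_congr_ae`, `kb_K_zero`.   `I ≠ 0, ≠ ⊤`: `c = I ^ (-(1/3) : ℝ)`, `c ^ 3 = I⁻¹` (`ENNReal.rpow_natCast`, `ENNReal.rpow_mul`, `ENNReal.rpow_neg_one`), `c ≠ 0, ≠ ⊤`;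
`h' = c * h`: `∫ h'³ = c³ I = 1` (`mul_pow`, `lintegral_const_mul`, `ENNReal.inv_mul_cancel`); `kbK δ h' = c * kbK δ h` (`kb_K_const_mul`); `c³ ∫ (K h)³ ≤ M`, multiply by `I`.
## LEAF `KB-F3` : `kb_const`, `kb_M_le`   (~150 l., real analysis)
`m = ⌈Real.logb 2 δ⁻¹⌉₊`: `δ⁻¹ = 2 ^ logb 2 δ⁻¹ ≤ 2 ^ m` (`Real.rpow_logb`, `Real.rpow_le_rpow_of_exponent_le`, `Real.rpow_natCast`), `m ≤ logb 2 δ⁻¹ + 1` (`Nat.ceil_lt_add_one`).   `Real.log_le_rpow_div`: `log x ≤ x^s / s`, `s = η/5`, `x = δ⁻¹ ≥ 1`: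
`m + 4 ≤ (5/(η log 2) + 5) x^(η/5)`; fifth power (`Real.mul_rpow`/`mul_pow`, `← Real.rpow_natCast`, `← Real.rpow_mul`), `x^η = δ^(-η)` (`Real.inv_rpow`, `Real.rpow_neg`).
`kb_M_le`: `13 + 512 A δ^(-ε) (m+4)^5 ≤ (13 + 512 A C₁) δ^(-2ε) ≤ (C δ^(-ε))^3` with `C = 13 + 512 A C₁ ≥ 1`, `δ^(-ε) ≥ 1`; transfer to `ℝ≥0∞` (`ENNReal.ofReal_add`, `ofReal_mul`, `ofReal_pow`, `ENNReal.ofReal_natCast`).
-/

set_option autoImplicit false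

namespace Claimed.Agent.R227

open Claims.C0388.Kakeya MeasureTheory
open scoped ENNReal

/-! ### `KB-F1` -/

theorem kb_eLpNorm_three {α : Type} [MeasurableSpace α] (μ : Measure α) (g : α → ℝ≥0∞) :
    eLpNorm g 3 μ = (∫⁻ x, g x ^ 3 ∂μ) ^ (1 / 3 : ℝ) := by
  rw [eLpNorm_eq_lintegral_rpow_enorm_toReal (by norm_num) (by norm_num)]
  have h3 : (3 : ℝ≥0∞).toReal = 3 := by norm_num
  rw [h3]
  congr 1
  refine lintegral_congr fun x => ?_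
  rw [enorm_eq_self, ← ENNReal.rpow_natCast]
  norm_num

theorem kb_eLpNorm_f {α : Type} [MeasurableSpace α] (μ : Measure α) (f : α → ℂ) :
    eLpNorm f 3 μ = (∫⁻ x, ENNReal.ofReal ‖f x‖ ^ 3 ∂μ) ^ (1 / 3 : ℝ) := by
  rw [eLpNorm_eq_lintegral_rpow_enorm_toReal (by norm_num) (by norm_num)]
  have h3 : (3 : ℝ≥0∞).toReal = 3 := by norm_num
  rw [h3]
  congr 1
  refine lintegral_congr fun x => ?_
  rw [ofReal_norm, ← ENNReal.rpow_natCast]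
  norm_num

/-! ### `KB-F2` -/

/-- removing the normalisation -/
theorem kb_scale {δ : ℝ} {M : ℝ≥0∞}
    (hM : ∀ h : Space → ℝ≥0∞, Measurable h → ∫⁻ x, h x ^ 3 ≤ 1 → ∫⁻ ω, kbK δ h ω ^ 3 ∂surfaceMeasure ≤ M)
    {h : Space → ℝ≥0∞} (hh : Measurable h) (hfin : ∫⁻ x, h x ^ 3 ≠ ⊤) :
    ∫⁻ ω, kbK δ h ω ^ 3 ∂surfaceMeasure ≤ M * ∫⁻ x, h x ^ 3 := by
  by_cases hI : ∫⁻ x, h x ^ 3 = 0
  · have h0 : h =ᵐ[volume] fun _ => 0 := by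
      have := (lintegral_eq_zero_iff (hh.pow_const 3)).1 hI
      filter_upwards [this] with x hx
      exact pow_eq_zero_iff (by norm_num) |>.1 hx
    rw [kb_K_congr_ae δ h0]
    simp [kb_K_zero]
  set I := ∫⁻ x, h x ^ 3 with hIdef
  set c : ℝ≥0∞ := I ^ (-(1 / 3) : ℝ) with hc
  have hc3 : c ^ 3 = I⁻¹ := by
    rw [hc, ← ENNReal.rpow_natCast, ← ENNReal.rpow_mul, ← ENNReal.rpow_neg_one]
    norm_num
  have h1 : ∫⁻ x, (c * h x) ^ 3 ≤ 1 := by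
    simp_rw [mul_pow]
    rw [lintegral_const_mul _ (hh.pow_const 3), hc3, ← hIdef, ENNReal.inv_mul_cancel hI hfin]
  have h2 := hM (fun x => c * h x) (hh.const_mul c) h1
  have h3 : ∫⁻ ω, kbK δ (fun x => c * h x) ω ^ 3 ∂surfaceMeasure =
      I⁻¹ * ∫⁻ ω, kbK δ h ω ^ 3 ∂surfaceMeasure := by
    simp_rw [kb_K_const_mul δ c hh, mul_pow, hc3]
    rw [lintegral_const_mul' _ _ (ENNReal.inv_ne_top.2 hI)]
  rw [h3] at h2
  calc ∫⁻ ω, kbK δ h ω ^ 3 ∂surfaceMeasure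
      = I * (I⁻¹ * ∫⁻ ω, kbK δ h ω ^ 3 ∂surfaceMeasure) := by
        rw [← mul_assoc, ENNReal.mul_inv_cancel hI hfin, one_mul]
    _ ≤ I * M := mul_le_mul_right h2 I
    _ = M * I := mul_comm _ _

/-! ### `KB-F3` -/

theorem kb_const {η : ℝ} (hη : 0 < η) : ∃ C : ℝ, 0 < C ∧ ∀ δ : ℝ, 0 < δ → δ < 1 →
    ∃ m : ℕ, δ⁻¹ ≤ 2 ^ m ∧ ((m : ℝ) + 4) ^ 5 ≤ C * δ ^ (-η) := by
  have hlog2 : 0 < Real.log 2 := Real.log_pos (by norm_num)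
  refine ⟨(5 / (η * Real.log 2) + 5) ^ 5, by positivity, fun δ hδ hδ1 => ?_⟩
  have hx1 : 1 < δ⁻¹ := (one_lt_inv₀ hδ).2 hδ1
  have hx0 : 0 < δ⁻¹ := by positivity
  refine ⟨⌈Real.logb 2 δ⁻¹⌉₊, ?_, ?_⟩
  · calc δ⁻¹ = (2 : ℝ) ^ (Real.logb 2 δ⁻¹) := (Real.rpow_logb (by norm_num) (by norm_num) hx0).symm
      _ ≤ (2 : ℝ) ^ ((⌈Real.logb 2 δ⁻¹⌉₊ : ℕ) : ℝ) :=
          Real.rpow_le_rpow_of_exponent_le (by norm_num) (Nat.le_ceil _)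
      _ = 2 ^ ⌈Real.logb 2 δ⁻¹⌉₊ := Real.rpow_natCast _ _
  · have hlb : 0 ≤ Real.logb 2 δ⁻¹ := Real.logb_nonneg (by norm_num) hx1.le
    have hm : ((⌈Real.logb 2 δ⁻¹⌉₊ : ℕ) : ℝ) < Real.logb 2 δ⁻¹ + 1 := Nat.ceil_lt_add_one hlb
    have hs : 0 < η / 5 := by positivity
    have hlog := Real.log_le_rpow_div hx0.le hs
    have hpow1 : 1 ≤ δ⁻¹ ^ (η / 5) := Real.one_le_rpow hx1.le hs.le
    have hlogb : Real.logb 2 δ⁻¹ ≤ 5 / (η * Real.log 2) * δ⁻¹ ^ (η / 5) := by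
      unfold Real.logb
      rw [div_le_iff₀ hlog2]
      calc Real.log δ⁻¹ ≤ δ⁻¹ ^ (η / 5) / (η / 5) := hlog
        _ = 5 / (η * Real.log 2) * δ⁻¹ ^ (η / 5) * Real.log 2 := by field_simp
    have hle : ((⌈Real.logb 2 δ⁻¹⌉₊ : ℕ) : ℝ) + 4 ≤ (5 / (η * Real.log 2) + 5) * δ⁻¹ ^ (η / 5) := by
      nlinarith
    have h5 : (δ⁻¹ ^ (η / 5)) ^ 5 = δ ^ (-η) := by
      rw [← Real.rpow_natCast, ← Real.rpow_mul hx0.le, Real.inv_rpow hδ.le, Real.rpow_neg hδ.le]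
      congr 2
      push_cast
      ring
    calc (((⌈Real.logb 2 δ⁻¹⌉₊ : ℕ) : ℝ) + 4) ^ 5
        ≤ ((5 / (η * Real.log 2) + 5) * δ⁻¹ ^ (η / 5)) ^ 5 :=
          pow_le_pow_left₀ (by positivity) hle 5
      _ = (5 / (η * Real.log 2) + 5) ^ 5 * δ ^ (-η) := by rw [mul_pow, h5]

theorem kb_M_le {ε A C₁ : ℝ} (hε : 0 < ε) (hA : 0 < A) (hC₁ : 0 < C₁) {δ : ℝ} (hδ : 0 < δ) (hδ1 : δ < 1) {m : ℕ}
    (hm : ((m : ℝ) + 4) ^ 5 ≤ C₁ * δ ^ (-ε)) :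
    13 + 512 * ENNReal.ofReal (A * δ ^ (-ε)) * ((m : ℝ≥0∞) + 4) ^ 5
      ≤ ENNReal.ofReal ((13 + 512 * A * C₁) * δ ^ (-ε)) ^ 3 := by
  have hd1 : 1 ≤ δ ^ (-ε) := Real.one_le_rpow_of_pos_of_le_one_of_nonpos hδ hδ1.le (by linarith)
  set d := δ ^ (-ε) with hd
  have e1 : (13 : ℝ≥0∞) + 512 * ENNReal.ofReal (A * d) * ((m : ℝ≥0∞) + 4) ^ 5 =
      ENNReal.ofReal (13 + 512 * (A * d) * ((m : ℝ) + 4) ^ 5) := by
    have hm4 : ((m : ℝ≥0∞) + 4) = ENNReal.ofReal ((m : ℝ) + 4) := by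
      rw [ENNReal.ofReal_add (by positivity) (by norm_num), ENNReal.ofReal_natCast]
      norm_num
    have a1 : ENNReal.ofReal (13 + 512 * (A * d) * ((m : ℝ) + 4) ^ 5) =
        ENNReal.ofReal 13 + ENNReal.ofReal (512 * (A * d) * ((m : ℝ) + 4) ^ 5) :=
      ENNReal.ofReal_add (by norm_num) (by positivity)
    have a2 : ENNReal.ofReal (512 * (A * d) * ((m : ℝ) + 4) ^ 5) =
        ENNReal.ofReal (512 * (A * d)) * ENNReal.ofReal (((m : ℝ) + 4) ^ 5) :=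
      ENNReal.ofReal_mul (by positivity)
    have a3 : ENNReal.ofReal (512 * (A * d)) = ENNReal.ofReal 512 * ENNReal.ofReal (A * d) :=
      ENNReal.ofReal_mul (by norm_num)
    have a4 : ENNReal.ofReal (((m : ℝ) + 4) ^ 5) = ENNReal.ofReal ((m : ℝ) + 4) ^ 5 :=
      ENNReal.ofReal_pow (by positivity) 5
    rw [a1, a2, a3, a4, hm4]
    norm_num
  rw [e1, ← ENNReal.ofReal_pow (by positivity)]
  refine ENNReal.ofReal_le_ofReal ?_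
  set K := 13 + 512 * A * C₁ with hK
  have hK1 : 1 ≤ K := by
    have : 0 < 512 * A * C₁ := by positivity
    linarith
  have h1 : 13 + 512 * (A * d) * ((m : ℝ) + 4) ^ 5 ≤ 13 + 512 * (A * d) * (C₁ * d) := by
    have : 0 ≤ 512 * (A * d) := by positivity
    nlinarith [mul_le_mul_of_nonneg_left hm this]
  have h2 : 13 + 512 * (A * d) * (C₁ * d) ≤ K * d ^ 2 := by
    have : (1 : ℝ) ≤ d ^ 2 := one_le_pow₀ hd1
    rw [hK]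
    nlinarith
  have h3 : K * d ^ 2 ≤ (K * d) ^ 3 := by
    have hK2 : K ≤ K ^ 3 := by
      calc K = K ^ 1 := (pow_one K).symm
        _ ≤ K ^ 3 := pow_le_pow_right₀ hK1 (by norm_num)
    have hd2 : d ^ 2 ≤ d ^ 3 := pow_le_pow_right₀ hd1 (by norm_num)
    rw [mul_pow]
    exact mul_le_mul hK2 hd2 (by positivity) (by positivity)
  linarith

/-! ### GLUE -/

/-- the bound for `f ∈ L³` -/
theorem kb_norm_bound {δ : ℝ} (hδ : 0 < δ) {c : ℝ≥0∞}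
    (hM : ∀ h : Space → ℝ≥0∞, Measurable h → ∫⁻ x, h x ^ 3 ≤ 1 → ∫⁻ ω, kbK δ h ω ^ 3 ∂surfaceMeasure ≤ c ^ 3)
    {f : Space → ℂ} (hf : MemLp f 3 volume) :
    AEStronglyMeasurable (maximal δ f) surfaceMeasure ∧
      eLpNorm (maximal δ f) 3 surfaceMeasure ≤ c * eLpNorm f 3 volume := by
  have haem : AEMeasurable (fun x => ENNReal.ofReal ‖f x‖) volume := by
    simp_rw [ofReal_norm]
    exact hf.1.enorm
  set h0 := haem.mk _ with hh0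
  have hmeas : Measurable h0 := haem.measurable_mk
  have hae : (fun x => ENNReal.ofReal ‖f x‖) =ᵐ[volume] h0 := haem.ae_eq_mk
  have hmax : maximal δ f = kbK δ h0 := by
    rw [kb_maximal_eq, kb_K_congr_ae δ hae]
  have hint : ∫⁻ x, h0 x ^ 3 = ∫⁻ x, ENNReal.ofReal ‖f x‖ ^ 3 := by
    refine lintegral_congr_ae ?_
    filter_upwards [hae] with x hx
    rw [← hx]
  have hfin : ∫⁻ x, h0 x ^ 3 ≠ ⊤ := by
    intro htop
    have h2 := hf.2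
    rw [kb_eLpNorm_f, ← hint, htop, ENNReal.top_rpow_of_pos (by norm_num)] at h2
    exact lt_irrefl _ h2
  rw [hmax]
  refine ⟨(kb_K_measurable hδ hmeas).aestronglyMeasurable, ?_⟩
  rw [kb_eLpNorm_three, kb_eLpNorm_f, ← hint]
  have h1 := kb_scale hM hmeas hfin
  calc (∫⁻ ω, kbK δ h0 ω ^ 3 ∂surfaceMeasure) ^ (1 / 3 : ℝ)
      ≤ (c ^ 3 * ∫⁻ x, h0 x ^ 3) ^ (1 / 3 : ℝ) := ENNReal.rpow_le_rpow h1 (by norm_num)
    _ = c * (∫⁻ x, h0 x ^ 3) ^ (1 / 3 : ℝ) := by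
        rw [ENNReal.mul_rpow_of_nonneg _ _ (by norm_num), ← ENNReal.rpow_natCast, ← ENNReal.rpow_mul]
        norm_num

/-- **`DiscreteKakeya ⟹ MaximalConjecture`** -/
theorem kb_main (hDK : DiscreteKakeya) : MaximalConjecture := by
  intro ε hε
  obtain ⟨A, hA, hrwt⟩ := kb_rwt hDK hε
  obtain ⟨C₁, hC₁, hconst⟩ := kb_const hε
  refine ⟨13 + 512 * A * C₁, by positivity, fun δ hδ hδ1 f hf => ?_⟩
  obtain ⟨m, hm, hm5⟩ := hconst δ hδ hδ1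
  have hM : ∀ h : Space → ℝ≥0∞, Measurable h → ∫⁻ x, h x ^ 3 ≤ 1 →
      ∫⁻ ω, kbK δ h ω ^ 3 ∂surfaceMeasure ≤ ENNReal.ofReal ((13 + 512 * A * C₁) * δ ^ (-ε)) ^ 3 :=
    fun h hh h3 => (kb_strong hδ (hrwt δ hδ hδ1) hm hh h3).trans (kb_M_le hε hA hC₁ hδ hδ1 hm5)
  obtain ⟨h1, h2⟩ := kb_norm_bound hδ hM hf
  exact ⟨⟨h1, lt_of_le_of_lt h2 (ENNReal.mul_lt_top ENNReal.ofReal_lt_top hf.2)⟩, h2⟩

end Claimed.Agent.R227
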