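import Claimed.Agent.R227.EndB.Defs

/-!
# Row 227, END227-B, layer GEOM: cylinders, their volume, caps of the sphere        (architect helper92, prefix `kb`)

PAPER-FREE, Mathlib only.  Statements FROZEN (problem -> msg helper92).  Helper lemmas directly above their use, prefix `kbg_`.

## LEAF `KB-G1` : `kb_inner_self`, `kb_tube_eq`, `kb_cyl_isClosed`, `kb_cyl_measurable`, `kb_tube_measurable`, `kb_cylO_isOpen`, `kb_tube_norm_le`   (~120 l.)
`‖ω‖ = 1` (`mem_sphere_zero_iff_norm`), `inner ω ω = 1` (`real_inner_self_eq_norm_sq`).  `tube`: `x = a + t ω + u`, `⟪x - a, ω⟫ = t`, `u = (x - a) - t ω`.  Closed/open: preimages under continuous maps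
(`continuous_inner`/`Continuous.inner`, `continuous_subtype_val`, `isClosed_le`, `isOpen_lt`; `fun_prop`).
## LEAF `KB-G2` : `kb_vol_cyl_le`   (~150 l.)
Extend `ω` to an orthonormal basis `b : OrthonormalBasis (Fin 3) ℝ Space` with `b 0 = ω` (`Orthonormal.exists_orthonormalBasis_extension_of_card_eq` with `v = fun _ => ω`, `s = {0}`).  `b.repr : Space ≃ₗᵢ[ℝ] Space` preserves the volume
(`LinearIsometryEquiv.measurePreserving`), translations too (`measurePreserving_sub_right`/`measure_preimage_add`).  For `x` in the cylinder, `y = b.repr (x - a)`: `y 0 = ⟪ω, x - a⟫`, `|y i| ≤ ‖(x-a) - ⟪..⟫ω‖` for `i = 1, 2`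
(`y i = ⟪b i, x - a⟫ = ⟪b i, (x-a) - ⟪..⟫ ω⟫` since `b i ⊥ ω`; Cauchy-Schwarz `abs_real_inner_le_norm`).  Volume of the box `{y | |y 0| ≤ h, |y 1| ≤ r, |y 2| ≤ r}` in `EuclideanSpace ℝ (Fin 3)`:
`EuclideanSpace.volume_preserving_symm_measurableEquiv_toLp`, `Real.volume_pi_Icc` (or `volume_pi_pi`), `Fin.prod_univ_three`.
## LEAF `KB-G3` : `kb_cyl_convex`, `kb_cylO_ae`   (~150 l.)
The cylinder is convex (`x ↦ ⟪x - a, ω⟫` is affine, `x ↦ (x-a) - ⟪x-a,ω⟫ω` is affine, `|·|`, `‖·‖` convex: direct computation with `Convex`/`convex_iff_forall_pos`, or intersection of preimages of `Icc`/`closedBall` under affine maps).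
`Convex.addHaar_frontier`.  `kbCyl \ kbCylO ⊆ frontier kbCyl`: the cylinder is closed, so `frontier = kbCyl \ interior kbCyl`; a point `x` of the interior with `|⟪x-a,ω⟫| = h`: `x + s ω` resp. `x - s ω` (`s > 0` small) is in the cylinder but has
`|⟪·,ω⟫| = h + s`; a point with `‖p‖ = r`, `p = (x-a) - ⟪..⟫ω`: `x + s p` has perpendicular part `(1+s) p`.
## LEAF `KB-G4` : `kb_cap_le`, `kb_sphere_le`   (~150 l.)
`Measure.toSphere_apply'` (`finrank ℝ Space = 3`: `finrank_euclideanSpace_fin`), the cone `Ioo 0 1 • (↑) '' cap ⊆ kbCyl 1 r 0 ω`: `x = t ω'`: `|⟪x,ω⟫| ≤ t ≤ 1`, `x - ⟪x,ω⟫ω = t ((ω'-ω) - ⟪ω'-ω,ω⟫ω)`, and `‖y - ⟪y,ω⟫ω‖ ≤ ‖y‖`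
(`‖y‖² = ⟪y,ω⟫² + ‖y - ⟪y,ω⟫ω‖²`).   `kb_vol_cyl_le`.     `kb_sphere_le`: `Measure.toSphere_apply_univ`, `EuclideanSpace.volume_ball_fin_three`, `Real.pi_lt_d2`.
-/

set_option autoImplicit false

namespace Claimed.Agent.R227

open Claims.C0388.Kakeya MeasureTheory
open scoped ENNReal

/-! ### `KB-G1` -/

theorem kbg_norm (ω : Direction) : ‖(ω : Space)‖ = 1 := mem_sphere_zero_iff_norm.1 ω.2

theorem kb_inner_self (ω : Direction) : inner ℝ (ω : Space) (ω : Space) = 1 := by
  rw [real_inner_self_eq_norm_sq, kbg_norm]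
  norm_num

theorem kb_tube_eq (δ : ℝ) (a : Space) (ω : Direction) : tube δ a ω = kbCyl (1 / 2) δ a ω := by
  ext x
  constructor
  · rintro ⟨t, ht, u, hu, hδ, rfl⟩
    have e : inner ℝ (a + t • (ω : Space) + u - a) (ω : Space) = t := by
      have : a + t • (ω : Space) + u - a = t • (ω : Space) + u := by abel
      rw [this, inner_add_left, inner_smul_left, kb_inner_self, hu]
      simp
    refine ⟨by rw [e]; exact ht, ?_⟩
    rw [e]
    have : a + t • (ω : Space) + u - a - t • (ω : Space) = u := by abel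
    rw [this]
    exact hδ
  · rintro ⟨h1, h2⟩
    refine ⟨inner ℝ (x - a) (ω : Space), h1, (x - a) - inner ℝ (x - a) (ω : Space) • (ω : Space), ?_, h2, by abel⟩
    rw [inner_sub_left, inner_smul_left, kb_inner_self]
    simp

theorem kb_cyl_isClosed (h r : ℝ) (a : Space) (ω : Direction) : IsClosed (kbCyl h r a ω) := by
  have h1 : IsClosed {x : Space | |inner ℝ (x - a) (ω : Space)| ≤ h} :=
    isClosed_le (by fun_prop) continuous_const
  have h2 : IsClosed {x : Space | ‖(x - a) - inner ℝ (x - a) (ω : Space) • (ω : Space)‖ ≤ r} :=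
    isClosed_le (by fun_prop) continuous_const
  exact h1.inter h2

theorem kb_cyl_measurable (h r : ℝ) (a : Space) (ω : Direction) : MeasurableSet (kbCyl h r a ω) :=
  (kb_cyl_isClosed h r a ω).measurableSet

theorem kb_tube_measurable (δ : ℝ) (a : Space) (ω : Direction) : MeasurableSet (tube δ a ω) := by
  rw [kb_tube_eq]
  exact kb_cyl_measurable _ _ _ _

/-- the open cylinders form an open subset of `Space × Direction` -/
theorem kb_cylO_isOpen (h r : ℝ) (a : Space) : IsOpen {p : Space × Direction | p.1 ∈ kbCylO h r a p.2} := by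
  have h1 : IsOpen {p : Space × Direction | |inner ℝ (p.1 - a) (p.2 : Space)| < h} :=
    isOpen_lt (by fun_prop) continuous_const
  have h2 : IsOpen {p : Space × Direction |
      ‖(p.1 - a) - inner ℝ (p.1 - a) (p.2 : Space) • (p.2 : Space)‖ < r} :=
    isOpen_lt (by fun_prop) continuous_const
  exact h1.inter h2

theorem kb_cylO_subset (h r : ℝ) (a : Space) (ω : Direction) : kbCylO h r a ω ⊆ kbCyl h r a ω :=
  fun _ hx => ⟨hx.1.le, hx.2.le⟩

/-- the points of a tube are close to its centre -/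
theorem kb_tube_norm_le {δ : ℝ} {a x : Space} {ω : Direction} (hx : x ∈ tube δ a ω) : ‖x - a‖ ≤ 1 / 2 + δ := by
  obtain ⟨t, ht, u, -, hδ, rfl⟩ := hx
  have : a + t • (ω : Space) + u - a = t • (ω : Space) + u := by abel
  rw [this]
  refine (norm_add_le _ _).trans (add_le_add ?_ hδ)
  rw [norm_smul, kbg_norm, mul_one]
  exact ht

/-! ### `KB-G2` -/

theorem kbg_exists_basis (ω : Direction) :
    ∃ b : OrthonormalBasis (Fin 3) ℝ Space, b 0 = (ω : Space) := by
  have hv : Orthonormal ℝ (({0} : Set (Fin 3)).domRestrict fun _ : Fin 3 => (ω : Space)) := by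
    constructor
    · intro i
      exact kbg_norm ω
    · intro i j hij
      exact absurd (Subtype.ext (i.2.trans j.2.symm)) hij
  obtain ⟨b, hb⟩ := Orthonormal.exists_orthonormalBasis_extension_of_card_eq
    (𝕜 := ℝ) (E := Space) (ι := Fin 3) (by simp) hv
  exact ⟨b, hb 0 rfl⟩

theorem kb_vol_cyl_le {h r : ℝ} (hh : 0 ≤ h) (hr : 0 ≤ r) (a : Space) (ω : Direction) :
    volume (kbCyl h r a ω) ≤ ENNReal.ofReal (8 * h * r ^ 2) := by
  obtain ⟨b, hb⟩ := kbg_exists_basis ω
  let c : Fin 3 → ℝ := ![h, r, r]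
  let F : Space → Fin 3 → ℝ := fun x => WithLp.ofLp (b.repr (x - a))
  have hF : MeasurePreserving F volume volume :=
    (PiLp.volume_preserving_ofLp (Fin 3)).comp
      (b.measurePreserving_repr.comp (measurePreserving_sub_right volume a))
  have hbox : MeasurableSet (Set.pi Set.univ fun i : Fin 3 => Set.Icc (-(c i)) (c i)) :=
    MeasurableSet.univ_pi fun i => measurableSet_Icc
  have hsub : kbCyl h r a ω ⊆ F ⁻¹' (Set.pi Set.univ fun i : Fin 3 => Set.Icc (-(c i)) (c i)) := by
    rintro x ⟨h1, h2⟩ i -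
    have hFi : F x i = inner ℝ (b i) (x - a) := by
      show (b.repr (x - a)) i = _
      rw [b.repr_apply_apply]
    have hperp : ∀ i : Fin 3, i ≠ 0 → |F x i| ≤ r := by
      intro i hi
      have e : inner ℝ (b i) (x - a) =
          inner ℝ (b i) ((x - a) - inner ℝ (x - a) (ω : Space) • (ω : Space)) := by
        rw [inner_sub_right (b i) (x - a), inner_smul_right, ← hb, b.orthonormal.2 hi]
        simp
      have hFi : F x i = inner ℝ (b i) (x - a) := by
        show (b.repr (x - a)) i = _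
        rw [b.repr_apply_apply]
      rw [hFi, e]
      refine (abs_real_inner_le_norm _ _).trans ?_
      rw [b.orthonormal.1 i, one_mul]
      exact h2
    rw [Set.mem_Icc, ← abs_le]
    fin_cases i
    · show |F x 0| ≤ h
      have : F x 0 = inner ℝ (x - a) (ω : Space) := by
        show (b.repr (x - a)) 0 = _
        rw [b.repr_apply_apply, hb, real_inner_comm]
      rw [this]
      exact h1
    · exact hperp 1 (by decide)
    · exact hperp 2 (by decide)
  refine (measure_mono hsub).trans ?_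
  rw [hF.measure_preimage hbox.nullMeasurableSet, volume_pi_pi]
  simp only [Real.volume_Icc, Fin.prod_univ_three]
  rw [← ENNReal.ofReal_mul (by simp [c]; linarith), ← ENNReal.ofReal_mul (by simp [c]; nlinarith)]
  refine le_of_eq ?_
  congr 1
  simp [c]
  ring

theorem kb_vol_tube_le {δ : ℝ} (hδ : 0 ≤ δ) (a : Space) (ω : Direction) :
    volume (tube δ a ω) ≤ ENNReal.ofReal (4 * δ ^ 2) := by
  rw [kb_tube_eq]
  refine (kb_vol_cyl_le (by norm_num) hδ a ω).trans (le_of_eq ?_)
  congr 1
  ring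

/-! ### `KB-G3` -/

theorem kb_cyl_convex (h r : ℝ) (a : Space) (ω : Direction) : Convex ℝ (kbCyl h r a ω) := by
  intro x hx y hy s t hs ht hst
  have e : s • x + t • y - a = s • (x - a) + t • (y - a) := by
    have h1 : a = (s + t) • a := by rw [hst, one_smul]
    calc s • x + t • y - a = s • x + t • y - (s + t) • a := by rw [← h1]
      _ = s • (x - a) + t • (y - a) := by rw [add_smul, smul_sub, smul_sub]; abel
  have e1 : inner ℝ (s • x + t • y - a) (ω : Space) =
      s * inner ℝ (x - a) (ω : Space) + t * inner ℝ (y - a) (ω : Space) := by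
    rw [e, inner_add_left, inner_smul_left, inner_smul_left]
    simp
  refine ⟨?_, ?_⟩
  · rw [e1]
    calc |s * inner ℝ (x - a) (ω : Space) + t * inner ℝ (y - a) (ω : Space)|
        ≤ |s * inner ℝ (x - a) (ω : Space)| + |t * inner ℝ (y - a) (ω : Space)| := abs_add_le _ _
      _ = s * |inner ℝ (x - a) (ω : Space)| + t * |inner ℝ (y - a) (ω : Space)| := by
          rw [abs_mul, abs_mul, abs_of_nonneg hs, abs_of_nonneg ht]
      _ ≤ s * h + t * h :=
          add_le_add (mul_le_mul_of_nonneg_left hx.1 hs) (mul_le_mul_of_nonneg_left hy.1 ht)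
      _ = h := by rw [← add_mul, hst, one_mul]
  · rw [e1, e]
    have e2 : s • (x - a) + t • (y - a) -
        (s * inner ℝ (x - a) (ω : Space) + t * inner ℝ (y - a) (ω : Space)) • (ω : Space) =
        s • ((x - a) - inner ℝ (x - a) (ω : Space) • (ω : Space)) +
          t • ((y - a) - inner ℝ (y - a) (ω : Space) • (ω : Space)) := by
      module
    rw [e2]
    calc ‖s • ((x - a) - inner ℝ (x - a) (ω : Space) • (ω : Space)) +
          t • ((y - a) - inner ℝ (y - a) (ω : Space) • (ω : Space))‖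
        ≤ ‖s • ((x - a) - inner ℝ (x - a) (ω : Space) • (ω : Space))‖ +
          ‖t • ((y - a) - inner ℝ (y - a) (ω : Space) • (ω : Space))‖ := norm_add_le _ _
      _ = s * ‖(x - a) - inner ℝ (x - a) (ω : Space) • (ω : Space)‖ +
          t * ‖(y - a) - inner ℝ (y - a) (ω : Space) • (ω : Space)‖ := by
          rw [norm_smul, norm_smul, Real.norm_of_nonneg hs, Real.norm_of_nonneg ht]
      _ ≤ s * r + t * r :=
          add_le_add (mul_le_mul_of_nonneg_left hx.2 hs) (mul_le_mul_of_nonneg_left hy.2 ht)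
      _ = r := by rw [← add_mul, hst, one_mul]

theorem kbg_interior_subset {h r : ℝ} (hh : 0 < h) (hr : 0 < r) (a : Space) (ω : Direction) :
    interior (kbCyl h r a ω) ⊆ kbCylO h r a ω := by
  intro x hx
  have hmem : kbCyl h r a ω ∈ nhds x := mem_interior_iff_mem_nhds.1 hx
  have key : ∀ v : Space, ∃ s : ℝ, 0 < s ∧ x + s • v ∈ kbCyl h r a ω := by
    intro v
    have hc : Filter.Tendsto (fun s : ℝ => x + s • v) (nhds 0) (nhds x) := by
      have h0 : Continuous fun s : ℝ => x + s • v := by fun_prop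
      simpa using h0.tendsto 0
    have h1 : ∀ᶠ s in nhdsWithin (0 : ℝ) (Set.Ioi 0), x + s • v ∈ kbCyl h r a ω :=
      (hc.eventually hmem).filter_mono nhdsWithin_le_nhds
    obtain ⟨s, hs1, hs2⟩ := (h1.and self_mem_nhdsWithin).exists
    exact ⟨s, hs2, hs1⟩
  constructor
  · by_contra hcon
    have hcon' : h ≤ |inner ℝ (x - a) (ω : Space)| := not_lt.1 hcon
    obtain ⟨s, hs, hs'⟩ := key (inner ℝ (x - a) (ω : Space) • (ω : Space))
    have e : inner ℝ (x + s • (inner ℝ (x - a) (ω : Space) • (ω : Space)) - a) (ω : Space) =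
        (1 + s) * inner ℝ (x - a) (ω : Space) := by
      have : x + s • (inner ℝ (x - a) (ω : Space) • (ω : Space)) - a =
          (x - a) + s • (inner ℝ (x - a) (ω : Space) • (ω : Space)) := by abel
      rw [this, inner_add_left, inner_smul_left, inner_smul_left, kb_inner_self]
      simp
      ring
    have h1 := hs'.1
    rw [e, abs_mul, abs_of_pos (by linarith : (0 : ℝ) < 1 + s)] at h1
    nlinarith
  · by_contra hcon
    have hcon' : r ≤ ‖(x - a) - inner ℝ (x - a) (ω : Space) • (ω : Space)‖ := not_lt.1 hcon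
    obtain ⟨s, hs, hs'⟩ := key ((x - a) - inner ℝ (x - a) (ω : Space) • (ω : Space))
    have e0 : inner ℝ ((x - a) - inner ℝ (x - a) (ω : Space) • (ω : Space)) (ω : Space) = 0 := by
      rw [inner_sub_left, inner_smul_left, kb_inner_self]
      simp
    have e : inner ℝ (x + s • ((x - a) - inner ℝ (x - a) (ω : Space) • (ω : Space)) - a)
        (ω : Space) = inner ℝ (x - a) (ω : Space) := by
      have : x + s • ((x - a) - inner ℝ (x - a) (ω : Space) • (ω : Space)) - a =
          (x - a) + s • ((x - a) - inner ℝ (x - a) (ω : Space) • (ω : Space)) := by abel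
      rw [this, inner_add_left, inner_smul_left, e0]
      simp
    have h1 := hs'.2
    rw [e] at h1
    have e2 : x + s • ((x - a) - inner ℝ (x - a) (ω : Space) • (ω : Space)) - a -
        inner ℝ (x - a) (ω : Space) • (ω : Space) =
        (1 + s) • ((x - a) - inner ℝ (x - a) (ω : Space) • (ω : Space)) := by
      rw [add_smul, one_smul]
      abel
    rw [e2, norm_smul, Real.norm_of_nonneg (by linarith : (0 : ℝ) ≤ 1 + s)] at h1
    nlinarith

/-- the boundary of a cylinder is a null set -/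
theorem kb_cylO_ae {h r : ℝ} (hh : 0 < h) (hr : 0 < r) (a : Space) (ω : Direction) :
    volume (kbCyl h r a ω \ kbCylO h r a ω) = 0 := by
  have hsub : kbCyl h r a ω \ kbCylO h r a ω ⊆ frontier (kbCyl h r a ω) := fun x hx =>
    ⟨subset_closure hx.1, fun hi => hx.2 (kbg_interior_subset hh hr a ω hi)⟩
  exact measure_mono_null hsub ((kb_cyl_convex h r a ω).addHaar_frontier volume)

/-! ### `KB-G4` -/

theorem kbg_perp_norm_le (y : Space) (ω : Direction) :
    ‖y - inner ℝ y (ω : Space) • (ω : Space)‖ ≤ ‖y‖ := by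
  refine le_of_pow_le_pow_left₀ two_ne_zero (norm_nonneg _) ?_
  rw [norm_sub_sq_real, inner_smul_right, norm_smul, kbg_norm, mul_one, Real.norm_eq_abs, sq_abs]
  nlinarith [sq_nonneg (inner ℝ y (ω : Space))]

open scoped Pointwise in
theorem kbg_cone_subset (r : ℝ) (ω : Direction) :
    Set.Ioo (0 : ℝ) 1 • ((↑) '' Metric.ball ω r : Set Space) ⊆ kbCyl 1 r 0 ω := by
  rintro _ ⟨t, ht, _, ⟨ω', hω', rfl⟩, rfl⟩
  have hd : ‖(ω' : Space) - (ω : Space)‖ < r := by
    have := Metric.mem_ball.1 hω'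
    rwa [Subtype.dist_eq, dist_eq_norm] at this
  have hr : 0 ≤ r := (norm_nonneg _).trans hd.le
  show |inner ℝ (t • (ω' : Space) - 0) (ω : Space)| ≤ 1 ∧
    ‖(t • (ω' : Space) - 0) - inner ℝ (t • (ω' : Space) - 0) (ω : Space) • (ω : Space)‖ ≤ r
  rw [sub_zero, inner_smul_left]
  simp only [conj_trivial]
  constructor
  · rw [abs_mul, abs_of_pos ht.1]
    have h1 : |inner ℝ (ω' : Space) (ω : Space)| ≤ 1 := by
      refine (abs_real_inner_le_norm _ _).trans ?_
      rw [kbg_norm, kbg_norm, one_mul]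
    nlinarith [ht.1, ht.2, abs_nonneg (inner ℝ (ω' : Space) (ω : Space))]
  · have e : t • (ω' : Space) - (t * inner ℝ (ω' : Space) (ω : Space)) • (ω : Space) =
        t • (((ω' : Space) - (ω : Space)) -
          inner ℝ ((ω' : Space) - (ω : Space)) (ω : Space) • (ω : Space)) := by
      rw [inner_sub_left, kb_inner_self]
      module
    rw [e, norm_smul, Real.norm_of_nonneg ht.1.le]
    have h1 := kbg_perp_norm_le ((ω' : Space) - (ω : Space)) ω
    have h2 := norm_nonneg (((ω' : Space) - (ω : Space)) -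
          inner ℝ ((ω' : Space) - (ω : Space)) (ω : Space) • (ω : Space))
    nlinarith [ht.1, ht.2]

open scoped Pointwise in
/-- caps of the sphere -/
theorem kb_cap_le {r : ℝ} (hr : 0 ≤ r) (ω : Direction) :
    surfaceMeasure (Metric.ball ω r) ≤ ENNReal.ofReal (24 * r ^ 2) := by
  unfold surfaceMeasure
  rw [Measure.toSphere_apply' _ Metric.isOpen_ball.measurableSet]
  have h1 : volume (Set.Ioo (0 : ℝ) 1 • ((↑) '' Metric.ball ω r : Set Space)) ≤
      ENNReal.ofReal (8 * 1 * r ^ 2) :=
    (measure_mono (kbg_cone_subset r ω)).trans (kb_vol_cyl_le zero_le_one hr 0 ω)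
  have h3 : ((Module.finrank ℝ Space : ℕ) : ℝ≥0∞) = ENNReal.ofReal 3 := by
    rw [finrank_euclideanSpace_fin]
    simp
  rw [h3]
  refine (mul_le_mul_right h1 _).trans (le_of_eq ?_)
  rw [← ENNReal.ofReal_mul (by norm_num)]
  congr 1
  ring

theorem kb_sphere_le : surfaceMeasure Set.univ ≤ 13 := by
  unfold surfaceMeasure
  rw [Measure.toSphere_apply_univ, EuclideanSpace.volume_ball_fin_three]
  have h3 : ((Module.finrank ℝ Space : ℕ) : ℝ≥0∞) = ENNReal.ofReal 3 := by
    rw [finrank_euclideanSpace_fin]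
    simp
  rw [h3, ENNReal.ofReal_one, one_pow, one_mul, ← ENNReal.ofReal_mul (by norm_num)]
  have h13 : (13 : ℝ≥0∞) = ENNReal.ofReal 13 := by simp
  rw [h13]
  refine ENNReal.ofReal_le_ofReal ?_
  have := Real.pi_lt_d2
  linarith

end Claimed.Agent.R227
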