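import Claimed.Agent.R227.EndB.Geom

/-!
# Row 227, END227-B, layer OP: measurability and the elementary properties of `kbK δ`        (architect helper92, prefix `kb`)

PAPER-FREE, Mathlib only + the statements of `Geom.lean` (black boxes).  Statements FROZEN (problem -> msg helper92).  Helper lemmas directly above their use, prefix `kbo_`.

## LEAF `KB-M1` : `kb_lsc_lintegral`   (~80 l., Mathlib only)
`lowerSemicontinuousAt_iff_le_liminf`; `∫⁻ x in {x | (x,y) ∈ U}, h x = ∫⁻ x, indicator {x | (x,y) ∈ U} h x` (`lintegral_indicator`, the section of an open set is open hence measurable);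
for fixed `x`: `indicator {..y} h x ≤ liminf_{y' → y} indicator {..y'} h x` (if `(x,y) ∈ U` then `(x,y') ∈ U` eventually: `Filter.le_liminf_of_le` + `Eventually`; else the left side is `0`);
Fatou `lintegral_liminf_le` for the countably generated filter `𝓝 y` (`lintegral_mono` first).
## LEAF `KB-M2` : `kb_lintegral_tube_eq`, `kb_K_measurable`   (~80 l.)
`∫⁻ x in tube δ a ω, h x = ∫⁻ x in kbCylO (1/2) δ a ω, h x` (`kb_tube_eq`, `kb_cylO_ae`, `kb_cylO_subset`: the two sets are a.e. equal, `Measure.restrict_congr_set`/`setLIntegral_congr`).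
`kbK δ h ω = c * ⨆ a, ∫⁻ ..` (`ENNReal.mul_iSup`), `lowerSemicontinuous_iSup`, `kb_lsc_lintegral` with `U = {p | p.1 ∈ kbCylO (1/2) δ a p.2}` (`kb_cylO_isOpen`), `LowerSemicontinuous.measurable`, `Measurable.const_mul`.
## LEAF `KB-O1` : `kb_K_mono`, `kb_K_congr_ae`, `kb_K_add_le`, `kb_K_sum_le`, `kb_K_const_mul`, `kb_K_zero`   (~120 l.)
`iSup_mono`, `lintegral_mono`, `lintegral_congr_ae` + `ae_restrict_of_ae`, `lintegral_add_left`, `ENNReal.mul_iSup`, `lintegral_const_mul`, `iSup_le` + `le_iSup`; induction on the finset.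
## LEAF `KB-O2` : `kb_K_le_const`, `kb_K_le_lintegral`, `kb_K_indicator`   (~100 l.)
`setLIntegral_mono`/`lintegral_mono`, `setLIntegral_const`, `kb_vol_tube_le`: `(ofReal (π δ²))⁻¹ * (M * ofReal (4 δ²)) ≤ 2 M` since `4 ≤ 2 π` (`Real.pi_gt_three`; `ENNReal.ofReal_mul`, `ENNReal.inv_mul_cancel`, or `ENNReal.div_le_iff`).
`setLIntegral_le_lintegral`.   `lintegral_indicator_one`/`setLIntegral_indicator`, `Measure.restrict_apply`.
-/

set_option autoImplicit false

namespace Claimed.Agent.R227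

open Claims.C0388.Kakeya MeasureTheory
open scoped ENNReal

/-! ### `KB-M1` -/

/-- integrals over the sections of an open set are lower semicontinuous -/
theorem kb_lsc_lintegral {X Y : Type} [TopologicalSpace X] [MeasurableSpace X] [OpensMeasurableSpace X]
    [TopologicalSpace Y] [FirstCountableTopology Y] (μ : Measure X) {U : Set (X × Y)} (hU : IsOpen U)
    {h : X → ℝ≥0∞} (hh : Measurable h) : LowerSemicontinuous fun y : Y => ∫⁻ x in {x | (x, y) ∈ U}, h x ∂μ := by
  have hopen : ∀ y : Y, IsOpen {x : X | (x, y) ∈ U} := fun y =>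
    hU.preimage (Continuous.prodMk_left y)
  have hmeas : ∀ y : Y, MeasurableSet {x : X | (x, y) ∈ U} := fun y => (hopen y).measurableSet
  have heq : ∀ y : Y, ∫⁻ x in {x | (x, y) ∈ U}, h x ∂μ
      = ∫⁻ x, Set.indicator {x | (x, y) ∈ U} h x ∂μ := fun y => (lintegral_indicator (hmeas y) h).symm
  intro y
  refine lowerSemicontinuousAt_iff_le_liminf.2 ?_
  simp only [heq]
  have hpt : ∀ x : X, Set.indicator {x | (x, y) ∈ U} h x
      ≤ Filter.liminf (fun y' : Y => Set.indicator {x | (x, y') ∈ U} h x) (nhds y) := by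
    intro x
    by_cases hx : (x, y) ∈ U
    · have hev : ∀ᶠ y' in nhds y, (x, y') ∈ U :=
        (hU.preimage (Continuous.prodMk_right x)).mem_nhds hx
      refine Filter.le_liminf_of_le (by isBoundedDefault) ?_
      filter_upwards [hev] with y' hy'
      rw [Set.indicator_of_mem (s := {x | (x, y) ∈ U}) hx, Set.indicator_of_mem (s := {x | (x, y') ∈ U}) hy']
    · rw [Set.indicator_of_notMem (s := {x | (x, y) ∈ U}) hx]
      exact zero_le
  refine (lintegral_mono hpt).trans ?_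
  exact lintegral_liminf_le (fun y' => hh.indicator (hmeas y'))

/-! ### `KB-M2` -/

theorem kb_lintegral_tube_eq {δ : ℝ} (hδ : 0 < δ) (a : Space) (ω : Direction) (h : Space → ℝ≥0∞) :
    ∫⁻ x in tube δ a ω, h x = ∫⁻ x in kbCylO (1 / 2) δ a ω, h x := by
  rw [kb_tube_eq]
  refine setLIntegral_congr ?_
  refine Filter.EventuallyEq.symm ?_
  refine (ae_eq_set).2 ⟨?_, kb_cylO_ae (by norm_num) hδ a ω⟩
  rw [Set.sdiff_eq_empty.2 (kb_cylO_subset _ _ _ _)]
  exact measure_empty

theorem kb_K_measurable {δ : ℝ} (hδ : 0 < δ) {h : Space → ℝ≥0∞} (hh : Measurable h) : Measurable (kbK δ h) := by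
  have e : kbK δ h = fun ω : Direction => (ENNReal.ofReal (Real.pi * δ ^ 2))⁻¹ *
      ⨆ a : Space, ∫⁻ x in {x | (x, ω) ∈ {p : Space × Direction | p.1 ∈ kbCylO (1 / 2) δ a p.2}}, h x := by
    funext ω
    unfold kbK
    rw [ENNReal.mul_iSup]
    refine iSup_congr fun a => ?_
    rw [kb_lintegral_tube_eq hδ]
    rfl
  rw [e]
  refine Measurable.const_mul ?_ _
  refine LowerSemicontinuous.measurable ?_
  refine lowerSemicontinuous_iSup fun a => ?_
  exact kb_lsc_lintegral volume (kb_cylO_isOpen (1 / 2) δ a) hh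

/-! ### `KB-O1` -/

theorem kb_K_mono (δ : ℝ) {h h' : Space → ℝ≥0∞} (hle : ∀ x, h x ≤ h' x) (ω : Direction) : kbK δ h ω ≤ kbK δ h' ω := by
  unfold kbK
  exact iSup_mono fun a => mul_le_mul_right (lintegral_mono hle) _

theorem kb_K_congr_ae (δ : ℝ) {h h' : Space → ℝ≥0∞} (hae : h =ᵐ[volume] h') : kbK δ h = kbK δ h' := by
  funext ω
  unfold kbK
  refine iSup_congr fun a => ?_
  rw [lintegral_congr_ae (ae_restrict_of_ae hae)]

theorem kb_K_zero (δ : ℝ) (ω : Direction) : kbK δ (fun _ => 0) ω = 0 := by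
  unfold kbK
  simp

theorem kb_K_add_le (δ : ℝ) {h h' : Space → ℝ≥0∞} (hh : Measurable h) (ω : Direction) :
    kbK δ (fun x => h x + h' x) ω ≤ kbK δ h ω + kbK δ h' ω := by
  unfold kbK
  refine iSup_le fun a => ?_
  rw [lintegral_add_left hh, mul_add]
  exact add_le_add
    (le_iSup (fun a : Space => (ENNReal.ofReal (Real.pi * δ ^ 2))⁻¹ * ∫⁻ x in tube δ a ω, h x) a)
    (le_iSup (fun a : Space => (ENNReal.ofReal (Real.pi * δ ^ 2))⁻¹ * ∫⁻ x in tube δ a ω, h' x) a)

theorem kb_K_sum_le (δ : ℝ) {ι : Type} (s : Finset ι) (h : ι → Space → ℝ≥0∞) (hh : ∀ i ∈ s, Measurable (h i))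
    (ω : Direction) : kbK δ (fun x => ∑ i ∈ s, h i x) ω ≤ ∑ i ∈ s, kbK δ (h i) ω := by
  classical
  induction s using Finset.induction_on with
  | empty =>
    simp only [Finset.sum_empty]
    exact (kb_K_zero δ ω).le
  | insert i s hi ih =>
    simp only [Finset.sum_insert hi]
    refine (kb_K_add_le δ (hh i (Finset.mem_insert_self i s)) ω).trans ?_
    exact add_le_add le_rfl (ih fun j hj => hh j (Finset.mem_insert_of_mem hj))

theorem kb_K_const_mul (δ : ℝ) (c : ℝ≥0∞) {h : Space → ℝ≥0∞} (hh : Measurable h) (ω : Direction) :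
    kbK δ (fun x => c * h x) ω = c * kbK δ h ω := by
  unfold kbK
  rw [ENNReal.mul_iSup]
  refine iSup_congr fun a => ?_
  rw [lintegral_const_mul c hh]
  ring

/-! ### `KB-O2` -/

/-- `L^∞ → L^∞` -/
theorem kb_K_le_const {δ : ℝ} (hδ : 0 < δ) {h : Space → ℝ≥0∞} {M : ℝ≥0∞} (hM : ∀ x, h x ≤ M) (ω : Direction) :
    kbK δ h ω ≤ 2 * M := by
  unfold kbK
  refine iSup_le fun a => ?_
  have hpos : 0 < Real.pi * δ ^ 2 := by positivity
  have h1 : ∫⁻ x in tube δ a ω, h x ≤ M * ENNReal.ofReal (4 * δ ^ 2) := by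
    refine (lintegral_mono hM).trans ?_
    rw [setLIntegral_const]
    exact mul_le_mul_right (kb_vol_tube_le hδ.le a ω) _
  have h2 : ENNReal.ofReal (4 * δ ^ 2) ≤ 2 * ENNReal.ofReal (Real.pi * δ ^ 2) := by
    have : (2 : ℝ≥0∞) = ENNReal.ofReal 2 := by simp
    rw [this, ← ENNReal.ofReal_mul (by norm_num)]
    refine ENNReal.ofReal_le_ofReal ?_
    have := Real.pi_gt_three
    nlinarith [sq_nonneg δ]
  have h0 : ENNReal.ofReal (Real.pi * δ ^ 2) ≠ 0 := by
    simpa using hpos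
  calc (ENNReal.ofReal (Real.pi * δ ^ 2))⁻¹ * ∫⁻ x in tube δ a ω, h x
      ≤ (ENNReal.ofReal (Real.pi * δ ^ 2))⁻¹ * (M * (2 * ENNReal.ofReal (Real.pi * δ ^ 2))) :=
        mul_le_mul_right (h1.trans (mul_le_mul_right h2 _)) _
    _ = ((ENNReal.ofReal (Real.pi * δ ^ 2))⁻¹ * ENNReal.ofReal (Real.pi * δ ^ 2)) * (2 * M) := by ring
    _ = 2 * M := by rw [ENNReal.inv_mul_cancel h0 ENNReal.ofReal_ne_top, one_mul]

/-- `L^1 → L^∞` -/
theorem kb_K_le_lintegral (δ : ℝ) (h : Space → ℝ≥0∞) (ω : Direction) :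
    kbK δ h ω ≤ (ENNReal.ofReal (Real.pi * δ ^ 2))⁻¹ * ∫⁻ x, h x := by
  unfold kbK
  exact iSup_le fun a => mul_le_mul_right (setLIntegral_le_lintegral _ _) _

theorem kb_K_indicator (δ : ℝ) {E : Set Space} (hE : MeasurableSet E) (ω : Direction) :
    kbK δ (E.indicator 1) ω = ⨆ a : Space, (ENNReal.ofReal (Real.pi * δ ^ 2))⁻¹ * volume (E ∩ tube δ a ω) := by
  unfold kbK
  refine iSup_congr fun a => ?_
  rw [lintegral_indicator_one hE, Measure.restrict_apply hE]

end Claimed.Agent.R227
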