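import Claimed.Agent.R227.EndB.Geom

/-!
# Row 227, END227-B, layer PATCH: `KAKL ⟹ DiscreteKakeya`        (architect helper92, prefix `kb`)

PAPER-FREE.  Statements FROZEN (problem -> msg helper92).  Helper lemmas directly above their use, prefix `kbp_`.

IDEA.  A direction `ω` has a coordinate `j` with `3 ω_j² ≥ 1`.  In the coordinates `y = (x_{j'}, x_{j''}, x_j) - z` (`kbPsi j z y = x`; `j' = j.succAbove 0`, `j'' = j.succAbove 1`) the part of `tube δ a ω` in the unit cell `kbCell z` lies in the slanted box tube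
`kbSlab (3δ) (kbV j ω) (kbA j z a ω)`.   `ω ↦ kbV j ω = (ω_{j'}, ω_{j''})/ω_j` does not decrease Euclidean distances on `{± ω_j > 0}`.
The tube meets at most `125` cells: one of them carries `1/125` of `vol (E ∩ tube)`; the cells are DISJOINT, so the sum over the cells of `vol (E ∩ cell)` is `≤ vol E`.  `KAKL` is used with `d = δ`, `R = 3`, `B = 8`, `lam/64`.

## LEAF `KB-P1` : `kb_psi_self`, `kb_psi_zero`, `kb_psi_one`, `kb_psi_mp`   (~150 l., Mathlib only)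
`Fin.insertNth_apply_same`, `Fin.insertNth_apply_succAbove`.   `kbPsi j z y = toLp z + (y ∘ σ)` with the permutation `σ` of `Fin 3`, `σ j = 2`, `σ (j.succAbove 0) = 0`, `σ (j.succAbove 1) = 1` (`fin_cases j`, explicit `Equiv.Perm (Fin 3)`, e.g. by `decide`-checked tables):
`LinearIsometryEquiv.piLpCongrLeft 2 ℝ ℝ σ` + `LinearIsometryEquiv.measurePreserving` (or `volume_measurePreserving_piCongrLeft` + `EuclideanSpace.volume_preserving_symm_measurableEquiv_toLp`), then `measurePreserving_add_left`.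
## LEAF `KB-P2` : `kb_sum_sq`, `kb_exists_coord`, `kb_coord_le_one`, `kb_tube_coord`, `kb_V_norm_le`   (~150 l.)
`∑ i, ω_i² = ‖ω‖² = 1` (`EuclideanSpace.norm_eq`/`EuclideanSpace.real_norm_sq_eq`, `Fin.sum_univ_three`).   `kb_tube_coord`: `x - a = t ω + u`, `u ⊥ ω`, `‖u‖ ≤ δ`: the expression is `u_i - u_j ω_i/ω_j`, `|u_i| ≤ ‖u‖` (`PiLp.norm_apply_le`/`EuclideanSpace.norm_eq`),
`|ω_i/ω_j| ≤ 2` since `|ω_i| ≤ 1` and `|ω_j| ≥ 1/2` (`4 ω_j² ≥ 3 ω_j² ≥ 1`).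
## LEAF `KB-P3` : `kb_dir_sep`   (~120 l.)
`dist ω ω' = ‖(ω:Space) - ω'‖` (`Subtype.dist_eq`, `dist_eq_norm`).  With `x = ω`, `y = ω'`, `P = x_j y_j ∈ (0,1]`, `c = ⟪x,y⟫ ≤ 1`:  `‖x-y‖² = 2 - 2c`,  `∑_{i ≠ j} (x_i/x_j - y_i/y_j)² = 1/x_j² + 1/y_j² - 2c/P`,
difference `= (1/x_j - 1/y_j)² + 2 (1 - c)(1/P - 1) ≥ 0`.   Sum over `i ≠ j`: `Fin.sum_univ_succAbove _ j` + `Fin.sum_univ_two`.
## LEAF `KB-P4` : `kb_cell_measurable`, `kb_cell_disjoint`, `kb_mem_cell_floor`, `kb_pigeon`   (~200 l.)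
`x ∈ kbCell z ↔ ∀ i, ⌊x i⌋ = z i` (`Int.floor_eq_iff`).   `Z₀ = Fintype.piFinset fun i => Finset.Icc (⌊a i⌋ - 2) (⌊a i⌋ + 2)`, `card = 5³ = 125` (`Fintype.card_piFinset`, `Int.card_Icc`).   For `x ∈ tube`: `|x i - a i| ≤ ‖x - a‖ ≤ 1/2 + δ < 3/2` (`kb_tube_norm_le`), so `⌊x ·⌋ ∈ Z₀`.
`vol (E ∩ T) ≤ ∑ z ∈ Z₀, vol (E ∩ cell z ∩ T)` (`measure_mono` + `measure_biUnion_finset_le`) `≤ 125 * max` (`Finset.exists_max_image`, `Finset.sum_le_card_nsmul`).
## LEAF `KB-P5` : `kb_psi_slab`, `kb_A_norm_le`   (~120 l.)   from `kb_tube_coord`, `kb_psi_*`, `kb_tube_norm_le`, `kb_V_norm_le`: see the computation in the docstrings.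
## LEAF `KB-P6` : `kb_group`   (~200 l.)
`C₀` from `hK η 3 8 hη (by norm_num)`; `C := C₀ * 262144`.  `N := Ω.card`, `e := Ω.equivFin.symm : Fin N ≃ Ω`, `V i = kbV j (e i)`, `A i = kbA j z (a (e i)) (e i)`, `E' = kbPsi j z ⁻¹' (E ∩ kbCell z)` (measurable: `(kb_psi_mp j z).measurable`),
`vol E' = vol (E ∩ cell)` (`MeasurePreserving.measure_preimage`, `.nullMeasurableSet`).   `kbPsi ⁻¹' (E ∩ cell ∩ T) ⊆ E' ∩ kbSlab (3 * δ) ..` by `kb_psi_slab`.   Bound on `A`: the set `E ∩ cell ∩ T` has positive measure, hence a point.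
Separation: `δ² ≤ dist² ≤ ..` by `KbSep` and `kb_dir_sep`.   Arithmetic: `(lam/64) δ² = lam δ²/64`; `(lam/64)^(-3) = 262144 lam^(-3)` (`Real.div_rpow`, `Real.rpow_neg`, `Real.rpow_natCast`).
## LEAF `KB-P7` : `kb_patch`   (~200 l.)
`z ω` from `kb_pigeon`; `ofReal (lam π δ²) ≤ 125 vol(..)` gives `ofReal (lam δ²/64) ≤ vol (E ∩ cell (z ω) ∩ T)` (`125 ≤ 64 π`).   `Ω = ⊔_{ζ ∈ Ω.image z} Ω.filter (z · = ζ)` (`Finset.card_eq_sum_card_fiberwise`), `kb_group` on every fibre (subsets of a separated set are separated),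
`ENNReal.ofReal_sum_of_nonneg`, `Finset.mul_sum`, `∑ ζ, vol (E ∩ cell ζ) = vol (⋃ ..) ≤ vol E` (`measure_biUnion_finset`, `kb_cell_disjoint`).
## LEAF `KB-P8` : `kb_dk_of_kakl`   (~150 l.)
`C := 6 * C'` (`C'` from `kb_patch`).   `Ω ⊆ ⋃_{(j,s) : Fin 3 × Bool} Ω.filter (fun ω => 1 ≤ 3 ω_j² ∧ (s = decide (0 < ω_j)))` (`kb_exists_coord`), `Finset.card_biUnion_le`; two elements of one piece have `ω_j ω'_j > 0` (`ω_j ≠ 0`).
-/

set_option autoImplicit false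

namespace Claimed.Agent.R227

open Claims.C0388.Kakeya MeasureTheory
open scoped ENNReal

/-- the point of `Space` with coordinates `y` relative to the corner `z`, the last coordinate of `y` being the `j`-th one -/
noncomputable def kbPsi (j : Fin 3) (z : Fin 3 → ℤ) (y : Space) : Space :=
  WithLp.toLp 2 fun i => (z i : ℝ) + (j.insertNth (α := fun _ => ℝ) (y 2) ![y 0, y 1]) i

/-- slope of the line of direction `ω` over the `j`-th axis -/
noncomputable def kbV (j : Fin 3) (ω : Direction) : ℝ × ℝ :=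
  ((ω : Space) (j.succAbove 0) / (ω : Space) j, (ω : Space) (j.succAbove 1) / (ω : Space) j)

/-- foot point (at height `z j`) of the axis of `tube δ a ω`, relative to `z` -/
noncomputable def kbA (j : Fin 3) (z : Fin 3 → ℤ) (a : Space) (ω : Direction) : ℝ × ℝ :=
  (a (j.succAbove 0) - z (j.succAbove 0) + (z j - a j) * (kbV j ω).1,
    a (j.succAbove 1) - z (j.succAbove 1) + (z j - a j) * (kbV j ω).2)

/-! ### `KB-P1` -/

theorem kb_psi_self (j : Fin 3) (z : Fin 3 → ℤ) (y : Space) : kbPsi j z y j = z j + y 2 := by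
  show (z j : ℝ) + (j.insertNth (α := fun _ => ℝ) (y 2) ![y 0, y 1]) j = z j + y 2
  rw [Fin.insertNth_apply_same]

theorem kb_psi_zero (j : Fin 3) (z : Fin 3 → ℤ) (y : Space) :
    kbPsi j z y (j.succAbove 0) = z (j.succAbove 0) + y 0 := by
  show (z (j.succAbove 0) : ℝ) + (j.insertNth (α := fun _ => ℝ) (y 2) ![y 0, y 1]) (j.succAbove 0) = _
  rw [Fin.insertNth_apply_succAbove]
  rfl

theorem kb_psi_one (j : Fin 3) (z : Fin 3 → ℤ) (y : Space) :
    kbPsi j z y (j.succAbove 1) = z (j.succAbove 1) + y 1 := by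
  show (z (j.succAbove 1) : ℝ) + (j.insertNth (α := fun _ => ℝ) (y 2) ![y 0, y 1]) (j.succAbove 1) = _
  rw [Fin.insertNth_apply_succAbove]
  rfl

theorem kb_psi_mp (j : Fin 3) (z : Fin 3 → ℤ) : MeasurePreserving (kbPsi j z) volume volume := by
  have h1 := PiLp.volume_preserving_ofLp (Fin 3)
  have h2 := volume_preserving_piFinSuccAbove (fun _ : Fin 3 => ℝ) 2
  have h3 := (volume_preserving_piFinSuccAbove (fun _ : Fin 3 => ℝ) j).symm
  have h4 := measurePreserving_add_left (volume : Measure (Fin 3 → ℝ)) (fun i => (z i : ℝ))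
  have h5 := PiLp.volume_preserving_toLp (Fin 3)
  have h := h5.comp (h4.comp (h3.comp (h2.comp h1)))
  have e : kbPsi j z = (WithLp.toLp 2 : (Fin 3 → ℝ) → Space) ∘ ((fun f : Fin 3 → ℝ => (fun i => (z i : ℝ)) + f) ∘
      ((MeasurableEquiv.piFinSuccAbove (fun _ : Fin 3 => ℝ) j).symm ∘
        ((MeasurableEquiv.piFinSuccAbove (fun _ : Fin 3 => ℝ) 2) ∘ (WithLp.ofLp : Space → Fin 3 → ℝ)))) := by
    funext y
    have e2 : (fun k : Fin 2 => y ((2 : Fin 3).succAbove k)) = ![y 0, y 1] := by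
      funext k
      fin_cases k <;> rfl
    show WithLp.toLp 2 (fun i => (z i : ℝ) + (j.insertNth (α := fun _ => ℝ) (y 2) ![y 0, y 1]) i) = _
    rw [← e2]
    rfl
  rw [e]
  exact h

/-! ### `KB-P2` -/

theorem kb_sum_sq (ω : Direction) : ∑ i, ((ω : Space) i) ^ 2 = 1 := by
  rw [← EuclideanSpace.real_norm_sq_eq, kbg_norm]
  norm_num

theorem kb_exists_coord (ω : Direction) : ∃ j : Fin 3, 1 ≤ 3 * ((ω : Space) j) ^ 2 := by
  by_contra hcon
  have h : ∀ j : Fin 3, 3 * ((ω : Space) j) ^ 2 < 1 := fun j => not_le.1 fun hj => hcon ⟨j, hj⟩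
  have h1 := kb_sum_sq ω
  rw [Fin.sum_univ_three] at h1
  linarith [h 0, h 1, h 2]

theorem kb_coord_le_one (ω : Direction) (i : Fin 3) : |(ω : Space) i| ≤ 1 := by
  have h := PiLp.norm_apply_le (ω : Space) i
  rwa [kbg_norm, Real.norm_eq_abs] at h

theorem kbp_half_le (ω : Direction) (j : Fin 3) (hω : 1 ≤ 3 * ((ω : Space) j) ^ 2) :
    1 / 2 ≤ |(ω : Space) j| := by
  by_contra hcon
  have h1 : |(ω : Space) j| < 1 / 2 := not_le.1 hcon
  have h2 : |(ω : Space) j| ^ 2 < (1 / 2) ^ 2 := pow_lt_pow_left₀ h1 (abs_nonneg _) two_ne_zero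
  rw [sq_abs] at h2
  linarith

theorem kbp_ratio (ω : Direction) (i j : Fin 3) (hω : 1 ≤ 3 * ((ω : Space) j) ^ 2) :
    |(ω : Space) i / (ω : Space) j| ≤ 2 := by
  have h1 := kbp_half_le ω j hω
  have h2 := kb_coord_le_one ω i
  rw [abs_div, div_le_iff₀ (by linarith)]
  linarith

/-- horizontal distance to the axis -/
theorem kb_tube_coord {δ : ℝ} (hδ : 0 ≤ δ) {a x : Space} {ω : Direction} (hx : x ∈ tube δ a ω) (j i : Fin 3)
    (hω : 1 ≤ 3 * ((ω : Space) j) ^ 2) :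
    |x i - a i - (x j - a j) * ((ω : Space) i / (ω : Space) j)| ≤ 3 * δ := by
  obtain ⟨t, -, u, -, hu, rfl⟩ := hx
  have hj : (ω : Space) j ≠ 0 := by
    intro h0
    rw [h0] at hω
    norm_num at hω
  have e : (a + t • (ω : Space) + u) i - a i -
      ((a + t • (ω : Space) + u) j - a j) * ((ω : Space) i / (ω : Space) j) =
      u i - u j * ((ω : Space) i / (ω : Space) j) := by
    simp only [PiLp.add_apply, PiLp.smul_apply, smul_eq_mul]
    field_simp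
    ring
  rw [e]
  have hui : ∀ k : Fin 3, |u k| ≤ δ := fun k => by
    have h := PiLp.norm_apply_le u k
    rw [Real.norm_eq_abs] at h
    exact h.trans hu
  have h1 := kbp_ratio ω i j hω
  calc |u i - u j * ((ω : Space) i / (ω : Space) j)|
      ≤ |u i| + |u j * ((ω : Space) i / (ω : Space) j)| := abs_sub _ _
    _ = |u i| + |u j| * |(ω : Space) i / (ω : Space) j| := by rw [abs_mul]
    _ ≤ δ + δ * 2 := add_le_add (hui i) (mul_le_mul (hui j) h1 (abs_nonneg _) hδ)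
    _ = 3 * δ := by ring

theorem kb_V_norm_le (j : Fin 3) (ω : Direction) (hω : 1 ≤ 3 * ((ω : Space) j) ^ 2) :
    |(kbV j ω).1| ≤ 2 ∧ |(kbV j ω).2| ≤ 2 :=
  ⟨kbp_ratio ω _ j hω, kbp_ratio ω _ j hω⟩

/-! ### `KB-P3` -/

theorem kbp_alg {x1 x2 p y1 y2 q : ℝ} (hx : p ^ 2 + (x1 ^ 2 + x2 ^ 2) = 1)
    (hy : q ^ 2 + (y1 ^ 2 + y2 ^ 2) = 1) (hpq : 0 < p * q) :
    (p - q) ^ 2 + ((x1 - y1) ^ 2 + (x2 - y2) ^ 2) ≤ (x1 / p - y1 / q) ^ 2 + (x2 / p - y2 / q) ^ 2 := by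
  have hp : p ≠ 0 := fun h => by rw [h, zero_mul] at hpq; exact lt_irrefl _ hpq
  have hq : q ≠ 0 := fun h => by rw [h, mul_zero] at hpq; exact lt_irrefl _ hpq
  obtain ⟨S, hS⟩ : ∃ S : ℝ, S = x1 * y1 + x2 * y2 := ⟨_, rfl⟩
  have hL : (p - q) ^ 2 + ((x1 - y1) ^ 2 + (x2 - y2) ^ 2) = 2 - 2 * (S + p * q) := by
    rw [hS]
    linear_combination hx + hy
  have hR : (x1 / p - y1 / q) ^ 2 + (x2 / p - y2 / q) ^ 2 =
      (1 - p ^ 2) / p ^ 2 + (1 - q ^ 2) / q ^ 2 - 2 * S / (p * q) := by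
    have e1 : 1 - p ^ 2 = x1 ^ 2 + x2 ^ 2 := by linarith
    have e2 : 1 - q ^ 2 = y1 ^ 2 + y2 ^ 2 := by linarith
    rw [e1, e2, hS]
    field_simp
    ring
  have hid : (1 - p ^ 2) / p ^ 2 + (1 - q ^ 2) / q ^ 2 - 2 * S / (p * q) - (2 - 2 * (S + p * q)) =
      (1 / p - 1 / q) ^ 2 + 2 * (1 - (S + p * q)) * (1 / (p * q) - 1) := by
    field_simp
    ring
  have hc : 0 ≤ 1 - (S + p * q) := by
    have : 0 ≤ (p - q) ^ 2 + ((x1 - y1) ^ 2 + (x2 - y2) ^ 2) := by positivity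
    rw [hL] at this
    linarith
  have hP : p * q ≤ 1 := by nlinarith [sq_nonneg (p - q), sq_nonneg x1, sq_nonneg x2, sq_nonneg y1, sq_nonneg y2]
  have hP' : 0 ≤ 1 / (p * q) - 1 := by
    rw [sub_nonneg, le_div_iff₀ hpq]
    linarith
  rw [hL, hR]
  have := mul_nonneg (mul_nonneg (by norm_num : (0 : ℝ) ≤ 2) hc) hP'
  nlinarith [sq_nonneg (1 / p - 1 / q)]

theorem kb_dir_sep (j : Fin 3) (ω ω' : Direction) (hs : 0 < (ω : Space) j * (ω' : Space) j) :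
    dist ω ω' ^ 2 ≤ ((kbV j ω).1 - (kbV j ω').1) ^ 2 + ((kbV j ω).2 - (kbV j ω').2) ^ 2 := by
  have h1 := kb_sum_sq ω
  have h2 := kb_sum_sq ω'
  rw [Fin.sum_univ_succAbove _ j, Fin.sum_univ_two] at h1 h2
  have h3 : dist ω ω' ^ 2 = ((ω : Space) j - (ω' : Space) j) ^ 2 +
      (((ω : Space) (j.succAbove 0) - (ω' : Space) (j.succAbove 0)) ^ 2 +
        ((ω : Space) (j.succAbove 1) - (ω' : Space) (j.succAbove 1)) ^ 2) := by
    rw [Subtype.dist_eq, dist_eq_norm, EuclideanSpace.real_norm_sq_eq, Fin.sum_univ_succAbove _ j,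
      Fin.sum_univ_two]
    rfl
  rw [h3]
  exact kbp_alg h1 h2 hs

/-! ### `KB-P4` -/

theorem kb_cell_measurable (z : Fin 3 → ℤ) : MeasurableSet (kbCell z) := by
  have e : kbCell z = ⋂ i, ({x : Space | (z i : ℝ) ≤ x i} ∩ {x : Space | x i < z i + 1}) := by
    ext x
    simp only [Set.mem_iInter]
    rfl
  rw [e]
  refine MeasurableSet.iInter fun i => ?_
  have hc : Continuous fun x : Space => x i := by fun_prop
  exact (isClosed_le continuous_const hc).measurableSet.inter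
    (isOpen_lt hc continuous_const).measurableSet

theorem kbp_mem_cell_iff (z : Fin 3 → ℤ) (x : Space) : x ∈ kbCell z ↔ ∀ i, ⌊x i⌋ = z i :=
  forall_congr' fun _ => Int.floor_eq_iff.symm

theorem kb_cell_disjoint {z z' : Fin 3 → ℤ} (h : z ≠ z') : Disjoint (kbCell z) (kbCell z') := by
  rw [Set.disjoint_left]
  intro x hx hx'
  refine h (funext fun i => ?_)
  rw [← (kbp_mem_cell_iff z x).1 hx i, (kbp_mem_cell_iff z' x).1 hx' i]

theorem kb_mem_cell_floor (x : Space) : x ∈ kbCell fun i => ⌊x i⌋ :=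
  (kbp_mem_cell_iff _ x).2 fun _ => rfl

theorem kb_pigeon {δ : ℝ} (hδ : 0 < δ) (hδ1 : δ < 1) (E : Set Space) (a : Space) (ω : Direction) :
    ∃ z : Fin 3 → ℤ, volume (E ∩ tube δ a ω) ≤ 125 * volume (E ∩ kbCell z ∩ tube δ a ω) := by
  classical
  obtain ⟨Z₀, hZ₀⟩ : ∃ Z₀ : Finset (Fin 3 → ℤ),
      Z₀ = Fintype.piFinset fun i => Finset.Icc (⌊a i⌋ - 2) (⌊a i⌋ + 2) := ⟨_, rfl⟩
  have hcard : Z₀.card = 125 := by
    rw [hZ₀, Fintype.card_piFinset]
    simp only [Int.card_Icc, Fin.prod_univ_three]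
    have : ∀ i : Fin 3, (⌊a i⌋ + 2 + 1 - (⌊a i⌋ - 2)).toNat = 5 := fun i => by
      have : ⌊a i⌋ + 2 + 1 - (⌊a i⌋ - 2) = 5 := by ring
      rw [this]
      rfl
    rw [this, this, this]
    norm_num
  have hne : Z₀.Nonempty := Finset.card_pos.1 (by rw [hcard]; norm_num)
  have hcov : E ∩ tube δ a ω ⊆ ⋃ z ∈ Z₀, E ∩ kbCell z ∩ tube δ a ω := by
    rintro x ⟨hxE, hxT⟩
    refine Set.mem_iUnion₂.2 ⟨fun i => ⌊x i⌋, ?_, ⟨hxE, kb_mem_cell_floor x⟩, hxT⟩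
    rw [hZ₀, Fintype.mem_piFinset]
    intro i
    have h1 : |x i - a i| ≤ 1 / 2 + δ := by
      have h := PiLp.norm_apply_le (x - a) i
      rw [Real.norm_eq_abs] at h
      exact h.trans (kb_tube_norm_le hxT)
    obtain ⟨h2, h3⟩ := abs_le.1 h1
    have a1 := Int.floor_le (a i)
    have a2 := Int.lt_floor_add_one (a i)
    have x1 := Int.floor_le (x i)
    have x2 := Int.lt_floor_add_one (x i)
    rw [Finset.mem_Icc]
    constructor
    · have : ((⌊a i⌋ - 3 : ℤ) : ℝ) < (⌊x i⌋ : ℝ) := by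
        push_cast
        linarith
      have := Int.cast_lt.1 this
      omega
    · have : ((⌊x i⌋ : ℤ) : ℝ) < ((⌊a i⌋ + 3 : ℤ) : ℝ) := by
        push_cast
        linarith
      have := Int.cast_lt.1 this
      omega
  obtain ⟨z, -, hz⟩ := Finset.exists_max_image Z₀
    (fun z => volume (E ∩ kbCell z ∩ tube δ a ω)) hne
  refine ⟨z, ?_⟩
  calc volume (E ∩ tube δ a ω) ≤ volume (⋃ z ∈ Z₀, E ∩ kbCell z ∩ tube δ a ω) := measure_mono hcov
    _ ≤ ∑ z ∈ Z₀, volume (E ∩ kbCell z ∩ tube δ a ω) := measure_biUnion_finset_le _ _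
    _ ≤ Z₀.card • volume (E ∩ kbCell z ∩ tube δ a ω) := Finset.sum_le_card_nsmul _ _ _ hz
    _ = 125 * volume (E ∩ kbCell z ∩ tube δ a ω) := by
        rw [hcard, nsmul_eq_mul]
        norm_num

/-! ### `KB-P5` -/

/-- `x = kbPsi j z y`: `x_j = z_j + c`, `c = y 2`, `x_i = z_i + y_i`, and `x_i - a_i - (x_j - a_j) V_i = y_i - A_i - c V_i`. -/
theorem kb_psi_slab {δ : ℝ} (hδ : 0 ≤ δ) (j : Fin 3) (z : Fin 3 → ℤ) (a : Space) (ω : Direction)
    (hω : 1 ≤ 3 * ((ω : Space) j) ^ 2) {y : Space} (hT : kbPsi j z y ∈ tube δ a ω)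
    (hQ : kbPsi j z y ∈ kbCell z) : y ∈ kbSlab (3 * δ) (kbV j ω) (kbA j z a ω) := by
  have hj := hQ j
  rw [kb_psi_self] at hj
  have h0 := kb_tube_coord hδ hT j (j.succAbove 0) hω
  have h1 := kb_tube_coord hδ hT j (j.succAbove 1) hω
  rw [kb_psi_self, kb_psi_zero] at h0
  rw [kb_psi_self, kb_psi_one] at h1
  refine ⟨by linarith [hj.1], by linarith [hj.2], ?_, ?_⟩
  · have e : y 0 - (kbA j z a ω).1 - y 2 * (kbV j ω).1 =
        (z (j.succAbove 0) : ℝ) + y 0 - a (j.succAbove 0) -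
          ((z j : ℝ) + y 2 - a j) * ((ω : Space) (j.succAbove 0) / (ω : Space) j) := by
      simp only [kbA, kbV]
      ring
    rw [e]
    exact h0
  · have e : y 1 - (kbA j z a ω).2 - y 2 * (kbV j ω).2 =
        (z (j.succAbove 1) : ℝ) + y 1 - a (j.succAbove 1) -
          ((z j : ℝ) + y 2 - a j) * ((ω : Space) (j.succAbove 1) / (ω : Space) j) := by
      simp only [kbA, kbV]
      ring
    rw [e]
    exact h1

/-- `|a_i - z_i| ≤ |a_i - x_i| + |x_i - z_i| ≤ 3/2 + 1`, `|A_i| ≤ 5/2 + 2 * 5/2`. -/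
theorem kb_A_norm_le {δ : ℝ} (hδ1 : δ < 1) (j : Fin 3) (z : Fin 3 → ℤ) (a : Space) (ω : Direction)
    (hω : 1 ≤ 3 * ((ω : Space) j) ^ 2) {x : Space} (hT : x ∈ tube δ a ω) (hQ : x ∈ kbCell z) :
    |(kbA j z a ω).1| ≤ 8 ∧ |(kbA j z a ω).2| ≤ 8 := by
  have hd : ∀ i : Fin 3, |a i - z i| ≤ 5 / 2 := by
    intro i
    have h1 : |x i - a i| ≤ 1 / 2 + δ := by
      have h := PiLp.norm_apply_le (x - a) i
      rw [Real.norm_eq_abs] at h
      exact h.trans (kb_tube_norm_le hT)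
    obtain ⟨h2, h3⟩ := abs_le.1 h1
    have h4 := hQ i
    rw [abs_le]
    constructor <;> linarith [h4.1, h4.2]
  have hV := kb_V_norm_le j ω hω
  have key : ∀ (i : Fin 3) (v : ℝ), |v| ≤ 2 → |a i - z i + (z j - a j) * v| ≤ 8 := by
    intro i v hv
    have h1 : |((z j : ℝ) - a j) * v| ≤ 5 / 2 * 2 := by
      rw [abs_mul, abs_sub_comm]
      exact mul_le_mul (hd j) hv (abs_nonneg _) (by norm_num)
    calc |a i - z i + (z j - a j) * v| ≤ |a i - z i| + |((z j : ℝ) - a j) * v| := abs_add_le _ _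
      _ ≤ 5 / 2 + 5 / 2 * 2 := add_le_add (hd i) h1
      _ ≤ 8 := by norm_num
  exact ⟨key _ _ hV.1, key _ _ hV.2⟩

/-! ### `KB-P6` -/

theorem kbp_rpow_64 {lam : ℝ} (hlam : 0 < lam) : (lam / 64) ^ (-3 : ℝ) = 262144 * lam ^ (-3 : ℝ) := by
  rw [Real.div_rpow hlam.le (by norm_num), Real.rpow_neg (by norm_num : (0 : ℝ) ≤ 64),
    show (3 : ℝ) = ((3 : ℕ) : ℝ) by norm_num, Real.rpow_natCast]
  norm_num
  ring

/-- one patch, one cell -/
theorem kb_group (hK : KAKL) {η : ℝ} (hη : 0 < η) : ∃ C : ℝ, 0 < C ∧ ∀ δ : ℝ, 0 < δ → δ < 1 → ∀ lam : ℝ, 0 < lam →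
    lam ≤ 1 → ∀ E : Set Space, MeasurableSet E → ∀ (j : Fin 3) (z : Fin 3 → ℤ) (Ω : Finset Direction)
      (a : Direction → Space), KbSep δ Ω → (∀ ω ∈ Ω, 1 ≤ 3 * ((ω : Space) j) ^ 2) →
      (∀ ω ∈ Ω, ∀ ω' ∈ Ω, 0 < (ω : Space) j * (ω' : Space) j) →
      (∀ ω ∈ Ω, ENNReal.ofReal (lam * δ ^ 2 / 64) ≤ volume (E ∩ kbCell z ∩ tube δ (a ω) ω)) →
      ENNReal.ofReal (δ ^ 2 * Ω.card) ≤ ENNReal.ofReal (C * δ ^ (-η) * lam ^ (-3 : ℝ)) * volume (E ∩ kbCell z) := by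
  obtain ⟨C₀, hC₀, hK'⟩ := hK η 3 8 hη (by norm_num)
  refine ⟨C₀ * 262144, by positivity, fun δ hδ hδ1 lam hlam hlam1 E hE j z Ω a hsep hj hsign hvol => ?_⟩
  have hmp := kb_psi_mp j z
  have hEc : MeasurableSet (E ∩ kbCell z) := hE.inter (kb_cell_measurable z)
  obtain ⟨e, -⟩ : ∃ e : Fin Ω.card ≃ Ω, True := ⟨Ω.equivFin.symm, trivial⟩
  have hmain := hK' δ hδ hδ1 (lam / 64) (by positivity) (by linarith) (kbPsi j z ⁻¹' (E ∩ kbCell z))
    (hmp.measurable hEc) Ω.card (fun i => kbV j (e i)) (fun i => kbA j z (a (e i)) (e i)) ?_ ?_ ?_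
  · rw [hmp.measure_preimage hEc.nullMeasurableSet, kbp_rpow_64 hlam] at hmain
    rw [show C₀ * 262144 * δ ^ (-η) * lam ^ (-3 : ℝ) = C₀ * δ ^ (-η) * (262144 * lam ^ (-3 : ℝ)) by ring]
    exact hmain
  · intro i
    have hi := (e i).2
    have hV := kb_V_norm_le j (e i) (hj _ hi)
    have hpos : volume (E ∩ kbCell z ∩ tube δ (a (e i)) (e i)) ≠ 0 := by
      intro h0
      have := hvol _ hi
      rw [h0, nonpos_iff_eq_zero, ENNReal.ofReal_eq_zero] at this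
      have h1 : 0 < lam * δ ^ 2 / 64 := by positivity
      linarith
    obtain ⟨x, hx⟩ := nonempty_of_measure_ne_zero hpos
    have hA := kb_A_norm_le hδ1 j z (a (e i)) (e i) (hj _ hi) hx.2 hx.1.2
    exact ⟨hV.1.trans (by norm_num), hV.2.trans (by norm_num), hA.1, hA.2⟩
  · intro i i' hne
    have hne' : ((e i : Direction)) ≠ (e i' : Direction) := fun h => hne (e.injective (Subtype.ext h))
    have h1 := hsep _ (e i).2 _ (e i').2 hne'
    have h2 := kb_dir_sep j (e i) (e i') (hsign _ (e i).2 _ (e i').2)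
    refine le_trans ?_ h2
    exact pow_le_pow_left₀ hδ.le h1 2
  · intro i
    have hi := (e i).2
    have hT : MeasurableSet (E ∩ kbCell z ∩ tube δ (a (e i)) (e i)) := hEc.inter (kb_tube_measurable _ _ _)
    rw [show lam / 64 * δ ^ 2 = lam * δ ^ 2 / 64 by ring]
    refine (hvol _ hi).trans ?_
    rw [← hmp.measure_preimage hT.nullMeasurableSet]
    refine measure_mono ?_
    intro y hy
    exact ⟨hy.1, kb_psi_slab hδ.le j z (a (e i)) (e i) (hj _ hi) hy.2 hy.1.2⟩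

/-! ### `KB-P7` -/

theorem kbp_sep_subset {δ : ℝ} {Ω Ω' : Finset Direction} (h : KbSep δ Ω) (hs : Ω' ⊆ Ω) : KbSep δ Ω' :=
  fun ω hω ω' hω' hne => h ω (hs hω) ω' (hs hω') hne

theorem kbp_div_125 {lam δ : ℝ} (hlam : 0 < lam) {v w : ℝ≥0∞}
    (h1 : ENNReal.ofReal (lam * (Real.pi * δ ^ 2)) ≤ v) (h2 : v ≤ 125 * w) :
    ENNReal.ofReal (lam * δ ^ 2 / 64) ≤ w := by
  have h3 : 125 * ENNReal.ofReal (lam * δ ^ 2 / 64) ≤ 125 * w := by
    refine le_trans ?_ (h1.trans h2)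
    rw [← ENNReal.ofReal_ofNat 125, ← ENNReal.ofReal_mul (by norm_num)]
    apply ENNReal.ofReal_le_ofReal
    have hpi := Real.pi_gt_three
    have h4 : 0 ≤ lam * δ ^ 2 := by positivity
    nlinarith
  exact (ENNReal.mul_le_mul_iff_right (by norm_num) (by norm_num)).1 h3

/-- one patch -/
theorem kb_patch (hK : KAKL) {η : ℝ} (hη : 0 < η) : ∃ C : ℝ, 0 < C ∧ ∀ δ : ℝ, 0 < δ → δ < 1 → ∀ lam : ℝ, 0 < lam →
    lam ≤ 1 → ∀ E : Set Space, MeasurableSet E → ∀ (j : Fin 3) (Ω : Finset Direction)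
      (a : Direction → Space), KbSep δ Ω → (∀ ω ∈ Ω, 1 ≤ 3 * ((ω : Space) j) ^ 2) →
      (∀ ω ∈ Ω, ∀ ω' ∈ Ω, 0 < (ω : Space) j * (ω' : Space) j) →
      (∀ ω ∈ Ω, ENNReal.ofReal (lam * (Real.pi * δ ^ 2)) ≤ volume (E ∩ tube δ (a ω) ω)) →
      ENNReal.ofReal (δ ^ 2 * Ω.card) ≤ ENNReal.ofReal (C * δ ^ (-η) * lam ^ (-3 : ℝ)) * volume E := by
  classical
  obtain ⟨C, hC, hgroup⟩ := kb_group hK hη
  refine ⟨C, hC, fun δ hδ hδ1 lam hlam hlam1 E hE j Ω a hsep hj hsign hvol => ?_⟩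
  choose z hz using fun ω : Direction => kb_pigeon hδ hδ1 E (a ω) ω
  obtain ⟨c, hc⟩ : ∃ c : ℝ≥0∞, c = ENNReal.ofReal (C * δ ^ (-η) * lam ^ (-3 : ℝ)) := ⟨_, rfl⟩
  rw [← hc]
  obtain ⟨fb, hfb⟩ : ∃ fb : (Fin 3 → ℤ) → Finset Direction, ∀ ζ, fb ζ = Ω.filter fun ω => z ω = ζ := ⟨_, fun _ => rfl⟩
  have hcard : Ω.card = ∑ ζ ∈ Ω.image z, (fb ζ).card := by
    rw [Finset.card_eq_sum_card_image z Ω]
    exact Finset.sum_congr rfl fun ζ _ => by rw [hfb]
  have hpiece : ∀ ζ, ENNReal.ofReal (δ ^ 2 * (fb ζ).card) ≤ c * volume (E ∩ kbCell ζ) := by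
    intro ζ
    have hsub : fb ζ ⊆ Ω := by
      rw [hfb]
      exact Finset.filter_subset _ _
    rw [hc]
    refine hgroup δ hδ hδ1 lam hlam hlam1 E hE j ζ (fb ζ) a (kbp_sep_subset hsep hsub)
      (fun ω hω => hj ω (hsub hω)) (fun ω hω ω' hω' => hsign ω (hsub hω) ω' (hsub hω')) ?_
    intro ω hω
    have hzω : z ω = ζ := by
      rw [hfb] at hω
      exact (Finset.mem_filter.1 hω).2
    rw [← hzω]
    exact kbp_div_125 hlam (hvol ω (hsub hω)) (hz ω)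
  calc ENNReal.ofReal (δ ^ 2 * Ω.card)
      = ENNReal.ofReal (∑ ζ ∈ Ω.image z, δ ^ 2 * ((fb ζ).card : ℝ)) := by
        rw [← Finset.mul_sum, hcard]
        push_cast
        rfl
    _ = ∑ ζ ∈ Ω.image z, ENNReal.ofReal (δ ^ 2 * ((fb ζ).card : ℝ)) :=
        ENNReal.ofReal_sum_of_nonneg fun ζ _ => mul_nonneg (sq_nonneg _) (Nat.cast_nonneg _)
    _ ≤ ∑ ζ ∈ Ω.image z, c * volume (E ∩ kbCell ζ) := Finset.sum_le_sum fun ζ _ => hpiece ζ
    _ = c * ∑ ζ ∈ Ω.image z, volume (E ∩ kbCell ζ) := by rw [Finset.mul_sum]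
    _ = c * volume (⋃ ζ ∈ Ω.image z, E ∩ kbCell ζ) := by
        rw [measure_biUnion_finset]
        · intro ζ _ ζ' _ hne
          exact (kb_cell_disjoint hne).mono Set.inter_subset_right Set.inter_subset_right
        · intro ζ _
          exact hE.inter (kb_cell_measurable ζ)
    _ ≤ c * volume E := by
        gcongr
        exact Set.iUnion₂_subset fun ζ _ => Set.inter_subset_left

/-! ### `KB-P8` -/

/-- **`KAKL ⟹ DiscreteKakeya`** -/
theorem kb_dk_of_kakl (hK : KAKL) : DiscreteKakeya := by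
  classical
  intro η hη
  obtain ⟨C, hC, hpatch⟩ := kb_patch hK hη
  refine ⟨6 * C, by positivity, fun δ hδ hδ1 lam hlam hlam1 E hE Ω a hsep hvol => ?_⟩
  -- the six pieces
  obtain ⟨pc, hpc⟩ : ∃ pc : Fin 3 × Bool → Finset Direction, ∀ js ω, ω ∈ pc js ↔
      ω ∈ Ω ∧ 1 ≤ 3 * ((ω : Space) js.1) ^ 2 ∧ js.2 = decide (0 < (ω : Space) js.1) :=
    ⟨fun js => Ω.filter fun ω => 1 ≤ 3 * ((ω : Space) js.1) ^ 2 ∧ js.2 = decide (0 < (ω : Space) js.1),
      fun js ω => Finset.mem_filter⟩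
  have hcov : Ω ⊆ Finset.univ.biUnion pc := by
    intro ω hω
    obtain ⟨j, hj⟩ := kb_exists_coord ω
    rw [Finset.mem_biUnion]
    exact ⟨(j, decide (0 < (ω : Space) j)), Finset.mem_univ _, (hpc _ _).2 ⟨hω, hj, rfl⟩⟩
  have hcard : Ω.card ≤ ∑ js, (pc js).card := (Finset.card_le_card hcov).trans Finset.card_biUnion_le
  obtain ⟨c, hc⟩ : ∃ c : ℝ≥0∞, c = ENNReal.ofReal (C * δ ^ (-η) * lam ^ (-3 : ℝ)) := ⟨_, rfl⟩
  have hpiece : ∀ js, ENNReal.ofReal (δ ^ 2 * (pc js).card) ≤ c * volume E := by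
    intro js
    have hsub : pc js ⊆ Ω := fun ω hω => ((hpc _ _).1 hω).1
    rw [hc]
    refine hpatch δ hδ hδ1 lam hlam hlam1 E hE js.1 (pc js) a (kbp_sep_subset hsep hsub) ?_ ?_
      fun ω hω => hvol ω (hsub hω)
    · intro ω hω
      exact ((hpc _ _).1 hω).2.1
    · intro ω hω ω' hω'
      obtain ⟨-, h1, h2⟩ := (hpc _ _).1 hω
      obtain ⟨-, h1', h2'⟩ := (hpc _ _).1 hω'
      have hne : (ω : Space) js.1 ≠ 0 := by
        intro h0
        rw [h0] at h1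
        norm_num at h1
      have hne' : (ω' : Space) js.1 ≠ 0 := by
        intro h0
        rw [h0] at h1'
        norm_num at h1'
      have h3 : decide (0 < (ω : Space) js.1) = decide (0 < (ω' : Space) js.1) := h2.symm.trans h2'
      by_cases hp : 0 < (ω : Space) js.1
      · have hp' : 0 < (ω' : Space) js.1 := by
          rw [decide_eq_true hp] at h3
          exact of_decide_eq_true h3.symm
        exact mul_pos hp hp'
      · have hp' : ¬ 0 < (ω' : Space) js.1 := by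
          rw [decide_eq_false hp] at h3
          exact of_decide_eq_false h3.symm
        exact mul_pos_of_neg_of_neg (lt_of_le_of_ne (not_lt.1 hp) hne) (lt_of_le_of_ne (not_lt.1 hp') hne')
  calc ENNReal.ofReal (δ ^ 2 * Ω.card)
      ≤ ENNReal.ofReal (∑ js, δ ^ 2 * ((pc js).card : ℝ)) := by
        apply ENNReal.ofReal_le_ofReal
        rw [← Finset.mul_sum]
        refine mul_le_mul_of_nonneg_left ?_ (sq_nonneg _)
        exact_mod_cast hcard
    _ = ∑ js, ENNReal.ofReal (δ ^ 2 * ((pc js).card : ℝ)) :=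
        ENNReal.ofReal_sum_of_nonneg fun js _ => mul_nonneg (sq_nonneg _) (Nat.cast_nonneg _)
    _ ≤ ∑ _js : Fin 3 × Bool, c * volume E := Finset.sum_le_sum fun js _ => hpiece js
    _ = 6 * (c * volume E) := by
        rw [Finset.sum_const, Finset.card_univ, Fintype.card_prod, Fintype.card_fin, Fintype.card_bool,
          nsmul_eq_mul]
        norm_num
    _ = ENNReal.ofReal (6 * C * δ ^ (-η) * lam ^ (-3 : ℝ)) * volume E := by
        rw [hc, ← mul_assoc]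
        congr 1
        rw [show 6 * C * δ ^ (-η) * lam ^ (-3 : ℝ) = 6 * (C * δ ^ (-η) * lam ^ (-3 : ℝ)) by ring,
          ENNReal.ofReal_mul (by norm_num : (0 : ℝ) ≤ 6), ENNReal.ofReal_ofNat]

end Claimed.Agent.R227
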