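import Claimed.Agent.R227.EndB.Op

/-!
# Row 227, END227-B, layer RWT: `DiscreteKakeya ⟹` restricted weak type `(3,3)`        (architect helper92, prefix `kb`)

PAPER-FREE.  Statements FROZEN (problem -> msg helper92).  Helper lemmas directly above their use, prefix `kbr_`.

## LEAF `KB-R1` : `kb_exists_net`   (~120 l., Mathlib only)
The sphere `Direction` is compact (`isCompact_sphere`, instance `CompactSpace`), hence there is a finite `t` with `univ ⊆ ⋃ x ∈ t, ball x (δ/2)` (`finite_cover_balls_of_compact isCompact_univ`).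
Every `δ`-separated finset `Ω` has `Ω.card ≤ t.card` (choose for `ω ∈ Ω` a centre `x ∈ t` with `ω ∈ ball x (δ/2)`: injective on `Ω`; `Finset.card_le_card_of_injOn`).
Take a `δ`-separated finset `Ω ⊆ Λ` of maximal cardinality (`Nat.find`/`Nat.findGreatest`/strong induction on `t.card - Ω.card`; `∅` is one).  If `λ ∈ Λ` had `δ ≤ dist λ ω` for all `ω ∈ Ω` then `insert λ Ω` would be larger.
So `Λ ⊆ ⋃ ω ∈ Ω, ball ω δ ⊆ ⋃ ball ω (2δ)`.    (Mathlib also has `Metric.IsSeparated`, `Metric.IsCover`: use them if shorter.)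
## LEAF `KB-R2` : `kb_rwt`   (~150 l.)
`C` from `hDK η`, `A := 96 * C`.   `Λ` = the level set.  For `ω ∈ Λ`: `kb_K_indicator`, `lt_iSup_iff` give `a` with `ofReal lam < (ofReal (π δ²))⁻¹ * volume (E ∩ tube δ a ω)`, hence `ofReal (lam * (π δ²)) ≤ volume (E ∩ tube ..)`
(`ENNReal.ofReal_mul`, `ENNReal.mul_lt_of_lt_div`/`ENNReal.lt_div_iff_mul_lt`-type lemmas; `ofReal (π δ²) ≠ 0, ≠ ⊤`).  Choose `a : Direction → Space` by `Classical.choice` (`a ω = 0` outside `Λ`).  `kb_exists_net hδ Λ`.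
`σ Λ ≤ ∑ ω ∈ Ω, σ (ball ω (2δ))` (`measure_mono`, `measure_biUnion_finset_le`) `≤ card Ω * ofReal (24 (2δ)²) = 96 * ofReal (δ² card Ω)`, then `hDK`.
-/

set_option autoImplicit false

namespace Claimed.Agent.R227

open Claims.C0388.Kakeya MeasureTheory
open scoped ENNReal

/-- separated sets have bounded cardinality -/
theorem kbr_card_bound {δ : ℝ} (hδ : 0 < δ) : ∃ M : ℕ, ∀ Ω : Finset Direction, KbSep δ Ω → Ω.card ≤ M := by
  classical
  obtain ⟨t, -, ht, hcov⟩ := finite_cover_balls_of_compact (isCompact_univ : IsCompact (Set.univ : Set Direction))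
    (half_pos hδ)
  refine ⟨ht.toFinset.card, fun Ω hΩ => ?_⟩
  have hch : ∀ ω : Direction, ∃ x ∈ t, ω ∈ Metric.ball x (δ / 2) := by
    intro ω
    have := hcov (Set.mem_univ ω)
    simpa only [Set.mem_iUnion, exists_prop] using this
  choose f hf1 hf2 using hch
  refine Finset.card_le_card_of_injOn f (fun ω _ => ht.mem_toFinset.2 (hf1 ω)) ?_
  intro ω hω ω' hω' heq
  by_contra hne
  have h1 := hΩ ω hω ω' hω' hne
  have h2 : dist ω (f ω) < δ / 2 := hf2 ω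
  have h3 : dist ω' (f ω) < δ / 2 := by
    rw [heq]
    exact hf2 ω'
  have h4 := dist_triangle_right ω ω' (f ω)
  linarith

/-- maximal separated subsets -/
theorem kb_exists_net {δ : ℝ} (hδ : 0 < δ) (Λ : Set Direction) :
    ∃ Ω : Finset Direction, (∀ ω ∈ Ω, ω ∈ Λ) ∧ KbSep δ Ω ∧ Λ ⊆ ⋃ ω ∈ Ω, Metric.ball ω (2 * δ) := by
  classical
  obtain ⟨M, hM⟩ := kbr_card_bound hδ
  -- a separated subset of maximal cardinality
  have hex : ∃ n : ℕ, ∃ Ω : Finset Direction, (∀ ω ∈ Ω, ω ∈ Λ) ∧ KbSep δ Ω ∧ Ω.card = n :=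
    ⟨0, ∅, by simp, fun ω hω => absurd hω (Finset.notMem_empty ω), rfl⟩
  have hbd : ∀ n : ℕ, (∃ Ω : Finset Direction, (∀ ω ∈ Ω, ω ∈ Λ) ∧ KbSep δ Ω ∧ Ω.card = n) → n ≤ M := by
    rintro n ⟨Ω, -, h2, rfl⟩
    exact hM Ω h2
  obtain ⟨Ω, h1, h2, h3⟩ := Nat.findGreatest_spec (P := fun n => ∃ Ω : Finset Direction,
    (∀ ω ∈ Ω, ω ∈ Λ) ∧ KbSep δ Ω ∧ Ω.card = n) (hbd _ hex.choose_spec) hex.choose_spec
  refine ⟨Ω, h1, h2, fun l hl => ?_⟩
  by_contra hcon
  have hfar : ∀ ω ∈ Ω, δ ≤ dist l ω := by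
    intro ω hω
    by_contra hlt
    push Not at hlt
    apply hcon
    simp only [Set.mem_iUnion, exists_prop]
    exact ⟨ω, hω, by rw [Metric.mem_ball]; linarith⟩
  have hnot : l ∉ Ω := by
    intro hmem
    have := hfar l hmem
    rw [dist_self] at this
    linarith
  have hins : ∃ Ω' : Finset Direction, (∀ ω ∈ Ω', ω ∈ Λ) ∧ KbSep δ Ω' ∧ Ω'.card = Ω.card + 1 := by
    refine ⟨insert l Ω, ?_, ?_, Finset.card_insert_of_notMem hnot⟩
    · intro ω hω
      rcases Finset.mem_insert.1 hω with rfl | hω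
      · exact hl
      · exact h1 ω hω
    · intro ω hω ω' hω' hne
      rcases Finset.mem_insert.1 hω with h5 | h5 <;> rcases Finset.mem_insert.1 hω' with h6 | h6
      · exact absurd (h5.trans h6.symm) hne
      · rw [h5]
        exact hfar ω' h6
      · rw [h6, dist_comm]
        exact hfar ω h5
      · exact h2 ω h5 ω' h6 hne
  have hle := Nat.le_findGreatest (P := fun n => ∃ Ω : Finset Direction,
    (∀ ω ∈ Ω, ω ∈ Λ) ∧ KbSep δ Ω ∧ Ω.card = n) (hbd _ hins) hins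
  omega

/-- **restricted weak type** -/
theorem kb_rwt (hDK : DiscreteKakeya) {η : ℝ} (hη : 0 < η) :
    ∃ A : ℝ, 0 < A ∧ ∀ δ : ℝ, 0 < δ → δ < 1 → KbRwt δ (ENNReal.ofReal (A * δ ^ (-η))) := by
  classical
  obtain ⟨C, hC, hDK'⟩ := hDK η hη
  refine ⟨96 * C, by positivity, fun δ hδ hδ1 E hE lam hlam hlam1 => ?_⟩
  obtain ⟨Λ, hΛ⟩ : ∃ Λ : Set Direction, Λ = {ω | ENNReal.ofReal lam < kbK δ (E.indicator 1) ω} := ⟨_, rfl⟩
  rw [← hΛ]
  have hpi : 0 < Real.pi * δ ^ 2 := by positivity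
  have hch : ∀ ω : Direction, ∃ a : Space, ω ∈ Λ →
      ENNReal.ofReal (lam * (Real.pi * δ ^ 2)) ≤ volume (E ∩ tube δ a ω) := by
    intro ω
    by_cases hω : ω ∈ Λ
    · rw [hΛ, Set.mem_ofPred_eq, kb_K_indicator δ hE, lt_iSup_iff] at hω
      obtain ⟨a, ha⟩ := hω
      refine ⟨a, fun _ => ?_⟩
      rw [mul_comm, ← div_eq_mul_inv] at ha
      have := ENNReal.mul_lt_of_lt_div ha
      rw [ENNReal.ofReal_mul hlam.le]
      exact this.le
    · exact ⟨0, fun h => absurd h hω⟩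
  choose a ha using hch
  obtain ⟨Ω, hΩ1, hΩ2, hΩ3⟩ := kb_exists_net hδ Λ
  have hmain := hDK' δ hδ hδ1 lam hlam hlam1 E hE Ω a hΩ2 fun ω hω => ha ω (hΩ1 ω hω)
  have hd : 0 ≤ δ ^ (-η) := Real.rpow_nonneg hδ.le _
  calc surfaceMeasure Λ ≤ surfaceMeasure (⋃ ω ∈ Ω, Metric.ball ω (2 * δ)) := measure_mono hΩ3
    _ ≤ ∑ ω ∈ Ω, surfaceMeasure (Metric.ball ω (2 * δ)) := measure_biUnion_finset_le _ _
    _ ≤ ∑ _ω ∈ Ω, ENNReal.ofReal (24 * (2 * δ) ^ 2) := Finset.sum_le_sum fun ω _ => kb_cap_le (by positivity) ω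
    _ = 96 * ENNReal.ofReal (δ ^ 2 * Ω.card) := by
        rw [Finset.sum_const, nsmul_eq_mul, ← ENNReal.ofReal_ofNat 96, ← ENNReal.ofReal_natCast,
          ← ENNReal.ofReal_mul (Nat.cast_nonneg _), ← ENNReal.ofReal_mul (by norm_num)]
        congr 1
        ring
    _ ≤ 96 * (ENNReal.ofReal (C * δ ^ (-η) * lam ^ (-3 : ℝ)) * volume E) := by gcongr
    _ = ENNReal.ofReal (96 * C * δ ^ (-η)) * ENNReal.ofReal (lam ^ (-3 : ℝ)) * volume E := by
        rw [← mul_assoc, ← ENNReal.ofReal_ofNat 96, ← ENNReal.ofReal_mul (by norm_num),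
          ← ENNReal.ofReal_mul (by positivity)]
        congr 2
        ring

end Claimed.Agent.R227
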